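import Vale.Agent.P006.LV.Cen1
import Vale.Agent.P006.LVC.ProdPairs

/-!
P006, block LV-A: the hypothesis `LVC.CEN1Hyp` of block LV-C holds.
-/

namespace Vale.Agent.P006.LV

open Finset

theorem cen1Hyp : LVC.CEN1Hyp := by
  classical
  intro d hd hd1
  obtain ⟨e, C, he, hC, h⟩ := cen1_core hd hd1
  refine ⟨e, he, e, he, C, hC, ?_⟩
  intro B y K hB hy hy1 hK1 hK S hS a ha
  have h1 := h B y hB hy hy1 (fun n => if n ∈ S then a n else 0) (fun n => by
    split_ifs
    · exact ha n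
    · simp)
  refine le_trans ?_ h1
  have hsub : SPB K ⊆ SB (B ^ (1 + e)) := by
    intro k hk
    rw [mem_SPB] at hk
    rw [mem_SB]
    exact ⟨hk.1.1, hk.2, hk.1.2.trans hK⟩
  refine le_trans (le_of_eq ?_) (sum_le_sum_of_subset_of_nonneg hsub fun k _ _ => by positivity)
  refine sum_congr rfl fun k hk => ?_
  rw [mem_SPB] at hk
  congr 2
  have hSP : S ⊆ PB (B ^ y) := fun n hn => by
    rw [mem_PB]; exact hS n hn
  rw [← sum_subset hSP (fun n _ hn => by rw [if_neg hn, zero_mul])]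
  refine sum_congr rfl fun n hn => ?_
  rw [if_pos hn, ch, recip hk.1.1 (hS n hn).1]

end Vale.Agent.P006.LV
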