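import Mathlib.Analysis.SpecialFunctions.Pow.Real
import Mathlib.Analysis.SpecialFunctions.Log.Basic
import Mathlib.Analysis.Complex.ExponentialBounds

/-!
P006, block LV: bookkeeping of exponents.
-/

namespace Vale.Agent.P006.LV

open Finset

theorem rle {B a b : ℝ} (hB : 1 ≤ B) (h : a ≤ b) : B ^ a ≤ B ^ b :=
  Real.rpow_le_rpow_of_exponent_le hB h

theorem rone {B a : ℝ} (hB : 1 ≤ B) (h : 0 ≤ a) : 1 ≤ B ^ a := Real.one_le_rpow hB h

theorem rpos {B : ℝ} (hB : 1 ≤ B) (a : ℝ) : 0 < B ^ a :=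
  Real.rpow_pos_of_pos (by linarith) a

theorem radd {B : ℝ} (hB : 1 ≤ B) (a b : ℝ) : B ^ a * B ^ b = B ^ (a + b) :=
  (Real.rpow_add (by linarith) a b).symm

theorem rmul {B : ℝ} (hB : 1 ≤ B) (a b : ℝ) : (B ^ a) ^ b = B ^ (a * b) :=
  (Real.rpow_mul (by linarith) a b).symm

theorem rpow_sq {B : ℝ} (hB : 1 ≤ B) (a : ℝ) : (B ^ a) ^ 2 = B ^ (2 * a) := by
  rw [← Real.rpow_natCast, rmul hB]; congr 1; push_cast; ring

/-- every real `v ≥ 1` lies in a cell `[B^{κ i}, B^{κ (i+1)}]` of the grid -/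
theorem exists_grid {B κ h v : ℝ} (hB : 1 ≤ B) (hκ : 0 < κ) (hh : 0 ≤ h) (hv : 1 ≤ v)
    (hv' : v ≤ B ^ h) :
    ∃ i : ℕ, (i : ℝ) ≤ h / κ ∧ B ^ (κ * i) ≤ v ∧ v ≤ B ^ (κ * (i + 1)) := by
  rcases hB.eq_or_lt with rfl | hB1
  · refine ⟨0, by simpa using div_nonneg hh hκ.le, by simpa using hv, ?_⟩
    simpa using hv'
  · have hlB : 0 < Real.log B := Real.log_pos hB1
    have hlv : 0 ≤ Real.log v := Real.log_nonneg hv
    have hlv' : Real.log v ≤ h * Real.log B := by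
      have := Real.log_le_log (by linarith) hv'
      rwa [Real.log_rpow (by linarith)] at this
    set w : ℝ := Real.log v / Real.log B with hw
    have hw0 : 0 ≤ w := div_nonneg hlv hlB.le
    have hwh : w ≤ h := by rw [hw, div_le_iff₀ hlB]; exact hlv'
    have hvw : v = B ^ w := by
      rw [hw, Real.rpow_def_of_pos (by linarith), mul_div_cancel₀ _ hlB.ne',
        Real.exp_log (by linarith)]
    have h1 := Nat.floor_le (div_nonneg hw0 hκ.le)
    have h2 := (Nat.lt_floor_add_one (w / κ)).le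
    refine ⟨⌊w / κ⌋₊, h1.trans (div_le_div_of_nonneg_right hwh hκ.le), ?_, ?_⟩
    · nth_rewrite 1 [hvw]
      apply rle hB
      rw [le_div_iff₀ hκ] at h1
      linarith
    · nth_rewrite 1 [hvw]
      apply rle hB
      rw [div_le_iff₀ hκ] at h2
      push_cast at h2 ⊢
      linarith

/-- number of powers of three below a power of `B` -/
theorem exists_log_bound {ε : ℝ} (hε : 0 < ε) (h : ℝ) (hh : 0 ≤ h) : ∃ C : ℝ, 1 ≤ C ∧
    ∀ B : ℝ, 1 ≤ B → ∀ j : ℕ, (2 : ℝ) ^ j ≤ B ^ h → (j : ℝ) + 1 ≤ C * B ^ ε := by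
  refine ⟨1 + 2 * h / ε, by linarith [show 0 ≤ 2 * h / ε by positivity], ?_⟩
  intro B hB j hj
  have h1 : (j : ℝ) * Real.log 2 ≤ h * Real.log B := by
    have := Real.log_le_log (by positivity) hj
    rwa [Real.log_rpow (by linarith), Real.log_pow] at this
  have h2 : (1 : ℝ) / 2 ≤ Real.log 2 := by
    have := Real.log_two_gt_d9; linarith
  have h3 := Real.log_le_rpow_div (show (0 : ℝ) ≤ B by linarith) hε
  have h4 : (1 : ℝ) ≤ B ^ ε := rone hB hε.le
  have h5 : (j : ℝ) ≤ 2 * (h * Real.log B) := by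
    have : (j : ℝ) * (1 / 2) ≤ (j : ℝ) * Real.log 2 :=
      mul_le_mul_of_nonneg_left h2 (by positivity)
    linarith
  have h6 : h * Real.log B ≤ h * (B ^ ε / ε) := mul_le_mul_of_nonneg_left h3 hh
  have h7 : 2 * (h * (B ^ ε / ε)) = (2 * h / ε) * B ^ ε := by field_simp
  nlinarith

end Vale.Agent.P006.LV
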