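import Vale.Agent.P006.LV.Decomp
import Vale.Agent.P006.LV.Exp

/-!
P006, block LV: bounds for one cell `h₁ ~ Q₁, h₂ ~ Q₂`.
-/

namespace Vale.Agent.P006.LV

open Finset

/-- extension by zero -/
noncomputable def ext0 (E : Finset O) (γ : O → ℂ) : O → ℂ := by
  classical exact fun r => if r ∈ E then γ r else 0

theorem ext0_sum {E S : Finset O} (h : E ⊆ S) (γ g : O → ℂ) :
    ∑ r ∈ S, ext0 E γ r * g r = ∑ r ∈ E, γ r * g r := by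
  classical
  rw [← sum_subset h]
  · refine sum_congr rfl fun r hr => ?_
    simp [ext0, hr]
  · intro r _ hr
    simp [ext0, hr]

theorem ext0_norm {E S : Finset O} (h : E ⊆ S) {γ : O → ℂ} (hγ : ∀ r, ‖γ r‖ ≤ 1) :
    ∑ r ∈ S, ‖ext0 E γ r‖ ^ 2 ≤ E.card := by
  classical
  rw [← sum_subset h]
  · calc ∑ r ∈ E, ‖ext0 E γ r‖ ^ 2 ≤ ∑ r ∈ E, (1 : ℝ) := by
          refine sum_le_sum fun r hr => ?_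
          simp only [ext0, hr, if_true]
          exact pow_le_one₀ (norm_nonneg _) (hγ r)
      _ = E.card := by simp
  · intro r _ hr
    simp [ext0, hr]

theorem card_SB_le {X : ℝ} (hX : 0 ≤ X) : ((SB X).card : ℝ) ≤ 4 * X := by
  have h := card_le_card (SB_subset_PB X)
  have h2 := card_PB_le hX
  have h3 : ((SB X).card : ℝ) ≤ (PB X).card := by exact_mod_cast h
  linarith

theorem norm_sum_sq_le {E : Finset O} {γ g : O → ℂ} (hγ : ∀ r, ‖γ r‖ ≤ 1) (hg : ∀ r, ‖g r‖ ≤ 1) :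
    ‖∑ r ∈ E, γ r * g r‖ ^ 2 ≤ (E.card : ℝ) ^ 2 := by
  apply pow_le_pow_left₀ (norm_nonneg _)
  calc ‖∑ r ∈ E, γ r * g r‖ ≤ ∑ r ∈ E, ‖γ r * g r‖ := norm_sum_le _ _
    _ ≤ ∑ r ∈ E, (1 : ℝ) := by
        refine sum_le_sum fun r _ => ?_
        rw [norm_mul]
        exact mul_le_one₀ (hγ r) (norm_nonneg _) (hg r)
    _ = E.card := by simp

theorem norm_ch_sq_le (r k : O) : ‖ch r k ^ 2‖ ≤ 1 := by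
  rw [norm_pow]; exact pow_le_one₀ (norm_nonneg _) (norm_ch_le r k)

theorem norm_chch_le (r k l : O) : ‖ch r k * ch r l ^ 2‖ ≤ 1 := by
  rw [norm_mul]; exact mul_le_one₀ (norm_ch_le r k) (norm_nonneg _) (norm_ch_sq_le r l)

open Classical in
/-- the quadratic form of a cell -/
noncomputable def W (E : Finset O) (γ : O → ℂ) (Q₁ Q₂ : ℝ) : ℝ :=
  ∑ k₁ ∈ SB Q₁, ∑ k₂ ∈ (SB Q₂).filter (IsCoprime k₁ ·),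
    ‖∑ r ∈ E, γ r * (ch r k₁ * ch r k₂ ^ 2)‖ ^ 2

open Classical in
theorem W_le_full (E : Finset O) (γ : O → ℂ) (Q₁ Q₂ : ℝ) :
    W E γ Q₁ Q₂ ≤ ∑ k₁ ∈ SB Q₁, ∑ k₂ ∈ SB Q₂,
      ‖∑ r ∈ E, γ r * (ch r k₁ * ch r k₂ ^ 2)‖ ^ 2 := by
  refine sum_le_sum fun k₁ _ => ?_
  exact sum_le_sum_of_subset_of_nonneg (filter_subset _ _) fun _ _ _ => by positivity

theorem W_triv {E : Finset O} {γ : O → ℂ} (hγ : ∀ r, ‖γ r‖ ≤ 1) {Q₁ Q₂ : ℝ} (h1 : 0 ≤ Q₁)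
    (h2 : 0 ≤ Q₂) : W E γ Q₁ Q₂ ≤ 16 * (Q₁ * Q₂) * (E.card : ℝ) ^ 2 := by
  refine (W_le_full E γ Q₁ Q₂).trans ?_
  calc ∑ k₁ ∈ SB Q₁, ∑ k₂ ∈ SB Q₂, ‖∑ r ∈ E, γ r * (ch r k₁ * ch r k₂ ^ 2)‖ ^ 2
      ≤ ∑ k₁ ∈ SB Q₁, ∑ k₂ ∈ SB Q₂, (E.card : ℝ) ^ 2 := by
        refine sum_le_sum fun k₁ _ => sum_le_sum fun k₂ _ => ?_
        exact norm_sum_sq_le hγ fun r => norm_chch_le r k₁ k₂
    _ = (SB Q₁).card * ((SB Q₂).card * (E.card : ℝ) ^ 2) := by simp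
    _ ≤ (4 * Q₁) * ((4 * Q₂) * (E.card : ℝ) ^ 2) := by
        have := card_SB_le h1
        have := card_SB_le h2
        gcongr
    _ = _ := by ring

/-- the constant in `HBsq` -/
theorem W_b {ε C : ℝ} (hC : 0 ≤ C) (hC' : ∀ R K : ℝ, 1 ≤ R → 1 ≤ K → ∀ γ : O → ℂ,
    ∑ k ∈ SB K, ‖∑ r ∈ SB R, γ r * ch r k‖ ^ 2 ≤
      C * (R * K) ^ ε * (R + K + (R * K) ^ (2 / 3 : ℝ)) * ∑ r ∈ SB R, ‖γ r‖ ^ 2)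
    {X : ℝ} (hX : 1 ≤ X) {E : Finset O} (hE : E ⊆ SB X) {γ : O → ℂ} (hγ : ∀ r, ‖γ r‖ ≤ 1)
    {Q₁ Q₂ : ℝ} (h1 : 1 ≤ Q₁) (h2 : 0 ≤ Q₂) :
    W E γ Q₁ Q₂ ≤ 4 * Q₂ * (C * (X * Q₁) ^ ε * (X + Q₁ + (X * Q₁) ^ (2 / 3 : ℝ)) * E.card) := by
  refine (W_le_full E γ Q₁ Q₂).trans ?_
  rw [sum_comm]
  have key : ∀ k₂ ∈ SB Q₂, ∑ k₁ ∈ SB Q₁, ‖∑ r ∈ E, γ r * (ch r k₁ * ch r k₂ ^ 2)‖ ^ 2 ≤
      C * (X * Q₁) ^ ε * (X + Q₁ + (X * Q₁) ^ (2 / 3 : ℝ)) * E.card := by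
    intro k₂ _
    have h := hC' X Q₁ hX h1 (ext0 E fun r => γ r * ch r k₂ ^ 2)
    have e1 : ∀ k₁, ∑ r ∈ SB X, ext0 E (fun r => γ r * ch r k₂ ^ 2) r * ch r k₁ =
        ∑ r ∈ E, γ r * (ch r k₁ * ch r k₂ ^ 2) := by
      intro k₁
      rw [ext0_sum hE]
      exact sum_congr rfl fun r _ => by ring
    simp only [e1] at h
    refine h.trans (mul_le_mul_of_nonneg_left ?_ (by positivity))
    refine ext0_norm hE fun r => ?_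
    rw [norm_mul]; exact mul_le_one₀ (hγ r) (norm_nonneg _) (norm_ch_sq_le r k₂)
  calc ∑ k₂ ∈ SB Q₂, ∑ k₁ ∈ SB Q₁, ‖∑ r ∈ E, γ r * (ch r k₁ * ch r k₂ ^ 2)‖ ^ 2
      ≤ ∑ k₂ ∈ SB Q₂, C * (X * Q₁) ^ ε * (X + Q₁ + (X * Q₁) ^ (2 / 3 : ℝ)) * E.card :=
        sum_le_sum key
    _ = (SB Q₂).card * (C * (X * Q₁) ^ ε * (X + Q₁ + (X * Q₁) ^ (2 / 3 : ℝ)) * E.card) := by
        simp
    _ ≤ _ := mul_le_mul_of_nonneg_right (card_SB_le h2) (by positivity)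

theorem norm_sum_conj (E : Finset O) (γ g : O → ℂ) :
    ‖∑ r ∈ E, γ r * (starRingEnd ℂ) (g r)‖ = ‖∑ r ∈ E, (starRingEnd ℂ) (γ r) * g r‖ := by
  rw [← Complex.norm_conj, map_sum]
  congr 1
  exact sum_congr rfl fun r _ => by simp

theorem W_c {ε C : ℝ} (hC : 0 ≤ C) (hC' : ∀ R K : ℝ, 1 ≤ R → 1 ≤ K → ∀ γ : O → ℂ,
    ∑ k ∈ SB K, ‖∑ r ∈ SB R, γ r * ch r k‖ ^ 2 ≤
      C * (R * K) ^ ε * (R + K + (R * K) ^ (2 / 3 : ℝ)) * ∑ r ∈ SB R, ‖γ r‖ ^ 2)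
    {X : ℝ} (hX : 1 ≤ X) {E : Finset O} (hE : E ⊆ SB X) {γ : O → ℂ} (hγ : ∀ r, ‖γ r‖ ≤ 1)
    {Q₁ Q₂ : ℝ} (h1 : 0 ≤ Q₁) (h2 : 1 ≤ Q₂) :
    W E γ Q₁ Q₂ ≤ 4 * Q₁ * (C * (X * Q₂) ^ ε * (X + Q₂ + (X * Q₂) ^ (2 / 3 : ℝ)) * E.card) := by
  refine (W_le_full E γ Q₁ Q₂).trans ?_
  have key : ∀ k₁ ∈ SB Q₁, ∑ k₂ ∈ SB Q₂, ‖∑ r ∈ E, γ r * (ch r k₁ * ch r k₂ ^ 2)‖ ^ 2 ≤
      C * (X * Q₂) ^ ε * (X + Q₂ + (X * Q₂) ^ (2 / 3 : ℝ)) * E.card := by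
    intro k₁ _
    have h := hC' X Q₂ hX h2 (ext0 E fun r => (starRingEnd ℂ) (γ r * ch r k₁))
    have e1 : ∀ k₂, ‖∑ r ∈ SB X, ext0 E (fun r => (starRingEnd ℂ) (γ r * ch r k₁)) r * ch r k₂‖ =
        ‖∑ r ∈ E, γ r * (ch r k₁ * ch r k₂ ^ 2)‖ := by
      intro k₂
      rw [ext0_sum hE, ← norm_sum_conj]
      congr 1
      exact sum_congr rfl fun r _ => by rw [conj_ch]; ring
    simp only [e1] at h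
    refine h.trans (mul_le_mul_of_nonneg_left ?_ (by positivity))
    refine ext0_norm hE fun r => ?_
    rw [Complex.norm_conj, norm_mul]; exact mul_le_one₀ (hγ r) (norm_nonneg _) (norm_ch_le r k₁)
  calc ∑ k₁ ∈ SB Q₁, ∑ k₂ ∈ SB Q₂, ‖∑ r ∈ E, γ r * (ch r k₁ * ch r k₂ ^ 2)‖ ^ 2
      ≤ ∑ k₁ ∈ SB Q₁, C * (X * Q₂) ^ ε * (X + Q₂ + (X * Q₂) ^ (2 / 3 : ℝ)) * E.card :=
        sum_le_sum key
    _ = (SB Q₁).card * (C * (X * Q₂) ^ ε * (X + Q₂ + (X * Q₂) ^ (2 / 3 : ℝ)) * E.card) := by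
        simp
    _ ≤ _ := mul_le_mul_of_nonneg_right (card_SB_le h1) (by positivity)

open Classical in
theorem W_d {C : ℝ} (hC : 0 ≤ C) (hC' : ∀ R Q₁ Q₂ : ℝ, 1 ≤ R → 1 ≤ Q₁ → 1 ≤ Q₂ → ∀ γ : O → ℂ,
    ∑ k₁ ∈ SB Q₁, ∑ k₂ ∈ (SB Q₂).filter (IsCoprime k₁ ·),
        ‖∑ r ∈ SB R, γ r * (ch r k₁ * ch r k₂ ^ 2)‖ ^ 2 ≤
      C * (R + (Q₁ * Q₂) ^ 2) * ∑ r ∈ SB R, ‖γ r‖ ^ 2)
    {X : ℝ} (hX : 1 ≤ X) {E : Finset O} (hE : E ⊆ SB X) {γ : O → ℂ} (hγ : ∀ r, ‖γ r‖ ≤ 1)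
    {Q₁ Q₂ : ℝ} (h1 : 1 ≤ Q₁) (h2 : 1 ≤ Q₂) :
    W E γ Q₁ Q₂ ≤ C * (X + (Q₁ * Q₂) ^ 2) * E.card := by
  have h := hC' X Q₁ Q₂ hX h1 h2 (ext0 E γ)
  simp only [ext0_sum hE] at h
  exact h.trans (mul_le_mul_of_nonneg_left (ext0_norm hE hγ) (by positivity))

end Vale.Agent.P006.LV
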