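import Vale.Agent.P006.LV.Cell

/-!
P006, block LV: exponents for one cell.
-/

namespace Vale.Agent.P006.LV

open Finset

/-- the saving in the off-diagonal cells -/
noncomputable def sav (θ d : ℝ) : ℝ := min (d / 16) (θ / 6)

theorem sav_pos {θ d : ℝ} (hθ : 0 < θ) (hd : 0 < d) : 0 < sav θ d :=
  lt_min (by positivity) (by positivity)

/-- the target bound (without constants) -/
noncomputable def tgt (θ d ε B x h n : ℝ) : ℝ :=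
  B ^ ε * (B ^ (h / 3 + θ) * n ^ 2 + (B ^ (h / 3 + x - sav θ d) + B ^ (2 / 3 * (h + x))) * n)

theorem tgt_nonneg {θ d ε B x h n : ℝ} (hB : 1 ≤ B) (hn : 0 ≤ n) : 0 ≤ tgt θ d ε B x h n := by
  have hP : ∀ a : ℝ, 0 < B ^ a := fun a => rpos hB a
  unfold tgt
  have := (hP ε).le
  have := (hP (h / 3 + θ)).le
  have := (hP (h / 3 + x - sav θ d)).le
  have := (hP (2 / 3 * (h + x))).le
  positivity

theorem le_tgt₁ {θ d ε B x h n : ℝ} (hB : 1 ≤ B) (hε : 0 ≤ ε) (hn : 0 ≤ n) :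
    B ^ (h / 3 + θ) * n ^ 2 ≤ tgt θ d ε B x h n := by
  have hP : ∀ a : ℝ, 0 < B ^ a := fun a => rpos hB a
  have h1 : 0 ≤ B ^ (h / 3 + θ) * n ^ 2 := mul_nonneg (hP _).le (sq_nonneg n)
  have h2 : 0 ≤ (B ^ (h / 3 + x - sav θ d) + B ^ (2 / 3 * (h + x))) * n :=
    mul_nonneg (add_nonneg (hP _).le (hP _).le) hn
  calc B ^ (h / 3 + θ) * n ^ 2 ≤ B ^ (h / 3 + θ) * n ^ 2 +
        (B ^ (h / 3 + x - sav θ d) + B ^ (2 / 3 * (h + x))) * n := le_add_of_nonneg_right h2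
    _ ≤ tgt θ d ε B x h n := le_mul_of_one_le_left (by linarith) (rone hB hε)

theorem le_tgt₂ {θ d ε B x h n : ℝ} (hB : 1 ≤ B) (hn : 0 ≤ n) :
    B ^ ε * (B ^ (h / 3 + x - sav θ d) * n) ≤ tgt θ d ε B x h n := by
  have hP : ∀ a : ℝ, 0 < B ^ a := fun a => rpos hB a
  have h1 : 0 ≤ B ^ (h / 3 + θ) * n ^ 2 := mul_nonneg (hP _).le (sq_nonneg n)
  have h2 : 0 ≤ B ^ (2 / 3 * (h + x)) * n := mul_nonneg (hP _).le hn
  refine mul_le_mul_of_nonneg_left ?_ (hP _).le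
  rw [add_mul]; linarith

theorem le_tgt₃ {θ d ε B x h n : ℝ} (hB : 1 ≤ B) (hn : 0 ≤ n) :
    B ^ ε * (B ^ (2 / 3 * (h + x)) * n) ≤ tgt θ d ε B x h n := by
  have hP : ∀ a : ℝ, 0 < B ^ a := fun a => rpos hB a
  have h1 : 0 ≤ B ^ (h / 3 + θ) * n ^ 2 := mul_nonneg (hP _).le (sq_nonneg n)
  have h2 : 0 ≤ B ^ (h / 3 + x - sav θ d) * n := mul_nonneg (hP _).le hn
  refine mul_le_mul_of_nonneg_left ?_ (hP _).le
  rw [add_mul]; linarith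

theorem sieve_step {θ d ε C₁ B κ x h a b h' w n : ℝ} (hB : 1 ≤ B) (hε : 0 < ε) (hC₁ : 0 ≤ C₁)
    (hn : 0 ≤ n) (hκ3 : κ ≤ ε / 4) (hκ4 : κ ≤ 1) (hx2 : x ≤ 2) (ha2 : a ≤ 2)
    (hW : w ≤ 4 * B ^ (b + κ) * (C₁ * (B ^ x * B ^ (a + κ)) ^ (ε / 10)
        * (B ^ x + B ^ (a + κ) + (B ^ x * B ^ (a + κ)) ^ (2 / 3 : ℝ)) * n))
    (e1 : h' + b + κ + x ≤ h / 3 + x - sav θ d)
    (e2 : h' + b + κ + (a + κ) ≤ h / 3 + x - sav θ d)
    (e3 : h' + b + κ + 2 / 3 * (x + (a + κ)) ≤ 2 / 3 * (h + x) + ε / 2) :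
    4 * B ^ h' * w ≤ 48 * C₁ * tgt θ d ε B x h n := by
  have hP : ∀ a : ℝ, 0 < B ^ a := fun a => rpos hB a
  have hBε2 : B ^ (ε / 2) * B ^ (ε / 2) = B ^ ε := by rw [radd hB]; congr 1; ring
  have hBε1 : B ^ (ε / 2) ≤ B ^ ε := rle hB (by linarith)
  have c1 : (B ^ x * B ^ (a + κ)) ^ (ε / 10) ≤ B ^ (ε / 2) := by
    rw [radd hB, rmul hB]
    apply rle hB
    have : x + (a + κ) ≤ 5 := by linarith
    nlinarith
  have c2 : (B ^ x * B ^ (a + κ)) ^ (2 / 3 : ℝ) = B ^ (2 / 3 * (x + (a + κ))) := by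
    rw [radd hB, rmul hB]; congr 1; ring
  have f1 : B ^ h' * (B ^ (b + κ) * B ^ x) ≤ B ^ (h / 3 + x - sav θ d) := by
    rw [radd hB, radd hB]; exact rle hB (by linarith)
  have f2 : B ^ h' * (B ^ (b + κ) * B ^ (a + κ)) ≤ B ^ (h / 3 + x - sav θ d) := by
    rw [radd hB, radd hB]; exact rle hB (by linarith)
  have f3 : B ^ h' * (B ^ (b + κ) * B ^ (2 / 3 * (x + (a + κ)))) ≤
      B ^ (ε / 2) * B ^ (2 / 3 * (h + x)) := by
    rw [radd hB, radd hB, radd hB]; exact rle hB (by linarith)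
  have q1 := (hP (b + κ)).le
  have q2 := (hP h').le
  have q3 := (hP x).le
  have q4 := (hP (a + κ)).le
  have q5 := (hP (2 / 3 * (x + (a + κ)))).le
  have q6 := (hP (ε / 2)).le
  calc 4 * B ^ h' * w
      ≤ 4 * B ^ h' * (4 * B ^ (b + κ) * (C₁ * B ^ (ε / 2)
        * (B ^ x + B ^ (a + κ) + B ^ (2 / 3 * (x + (a + κ)))) * n)) := by
        rw [c2] at hW
        refine mul_le_mul_of_nonneg_left (hW.trans ?_) (by positivity)
        gcongr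
    _ = 16 * C₁ * n * B ^ (ε / 2) * (B ^ h' * (B ^ (b + κ) * B ^ x)
          + B ^ h' * (B ^ (b + κ) * B ^ (a + κ))
          + B ^ h' * (B ^ (b + κ) * B ^ (2 / 3 * (x + (a + κ))))) := by
        ring
    _ ≤ 16 * C₁ * n * B ^ (ε / 2) * (B ^ (h / 3 + x - sav θ d) + B ^ (h / 3 + x - sav θ d)
          + B ^ (ε / 2) * B ^ (2 / 3 * (h + x))) := by
        refine mul_le_mul_of_nonneg_left (add_le_add (add_le_add f1 f2) f3) (by positivity)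
    _ = 32 * C₁ * (B ^ (ε / 2) * (B ^ (h / 3 + x - sav θ d) * n))
          + 16 * C₁ * ((B ^ (ε / 2) * B ^ (ε / 2)) * (B ^ (2 / 3 * (h + x)) * n)) := by ring
    _ ≤ 32 * C₁ * (B ^ ε * (B ^ (h / 3 + x - sav θ d) * n))
          + 16 * C₁ * (B ^ ε * (B ^ (2 / 3 * (h + x)) * n)) := by
        rw [hBε2]
        have := (hP (h / 3 + x - sav θ d)).le
        gcongr
    _ ≤ 32 * C₁ * tgt θ d ε B x h n + 16 * C₁ * tgt θ d ε B x h n := by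
        have v2 := le_tgt₂ (θ := θ) (d := d) (ε := ε) (x := x) (h := h) hB hn
        have v3 := le_tgt₃ (θ := θ) (d := d) (ε := ε) (x := x) (h := h) hB hn
        gcongr
    _ = 48 * C₁ * tgt θ d ε B x h n := by ring

theorem final_step {C₁ C₂ t k : ℝ} (hC₁ : 0 ≤ C₁) (hC₂ : 0 ≤ C₂) (ht : 0 ≤ t)
    (h : k ≤ 64 * t ∨ k ≤ 48 * C₁ * t ∨ k ≤ 8 * C₂ * t) : k ≤ (64 + 64 * C₁ + 8 * C₂) * t := by
  have h1 := mul_nonneg hC₁ ht
  have h2 := mul_nonneg hC₂ ht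
  rcases h with h | h | h <;> nlinarith

open Classical in
theorem cell_le {θ d ε C₁ C₂ : ℝ} (hθ : 0 < θ) (hd : 0 < d) (hε : 0 < ε)
    (hC₁ : 0 ≤ C₁) (hC₁' : ∀ R K : ℝ, 1 ≤ R → 1 ≤ K → ∀ γ : O → ℂ,
      ∑ k ∈ SB K, ‖∑ r ∈ SB R, γ r * ch r k‖ ^ 2 ≤
        C₁ * (R * K) ^ (ε / 10) * (R + K + (R * K) ^ (2 / 3 : ℝ)) * ∑ r ∈ SB R, ‖γ r‖ ^ 2)
    (hC₂ : 0 ≤ C₂) (hC₂' : ∀ R Q₁ Q₂ : ℝ, 1 ≤ R → 1 ≤ Q₁ → 1 ≤ Q₂ → ∀ γ : O → ℂ,
      ∑ k₁ ∈ SB Q₁, ∑ k₂ ∈ (SB Q₂).filter (IsCoprime k₁ ·),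
          ‖∑ r ∈ SB R, γ r * (ch r k₁ * ch r k₂ ^ 2)‖ ^ 2 ≤
        C₂ * (R + (Q₁ * Q₂) ^ 2) * ∑ r ∈ SB R, ‖γ r‖ ^ 2)
    {B κ x h a₁ a₂ : ℝ} (hB : 1 ≤ B) (hκ : 0 < κ) (hκ1 : κ ≤ θ / 4) (hκ2 : κ ≤ d / 16)
    (hκ3 : κ ≤ ε / 4) (hκ4 : κ ≤ 1) (hh : 0 ≤ h) (hx : h + d ≤ x) (hx2 : x ≤ 2)
    (ha₁ : 0 ≤ a₁) (ha₂ : 0 ≤ a₂) (ha : a₁ + 2 * a₂ ≤ h)
    {E : Finset O} (hE : E ⊆ SB (B ^ x)) {γ : O → ℂ} (hγ : ∀ r, ‖γ r‖ ≤ 1) :
    4 * B ^ ((h - a₁ - 2 * a₂) / 3) * W E γ (B ^ (a₁ + κ)) (B ^ (a₂ + κ)) ≤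
      (64 + 64 * C₁ + 8 * C₂) * tgt θ d ε B x h E.card := by
  set n : ℝ := (E.card : ℝ) with hn
  have hn0 : 0 ≤ n := by positivity
  have hs1 : sav θ d ≤ d / 16 := min_le_left _ _
  have hs2 : sav θ d ≤ θ / 6 := min_le_right _ _
  have hP : ∀ a : ℝ, 0 < B ^ a := fun a => rpos hB a
  have hX : (1 : ℝ) ≤ B ^ x := rone hB (by linarith)
  have q2 := (hP ((h - a₁ - 2 * a₂) / 3)).le
  refine final_step hC₁ hC₂ (tgt_nonneg hB hn0) ?_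
  by_cases hs : a₁ ≤ θ / 2 ∧ a₂ ≤ θ / 2
  · -- (a) small kernels
    left
    have hW := W_triv (E := E) hγ (hP (a₁ + κ)).le (hP (a₂ + κ)).le
    have f1 : B ^ ((h - a₁ - 2 * a₂) / 3) * (B ^ (a₁ + κ) * B ^ (a₂ + κ)) ≤ B ^ (h / 3 + θ) := by
      rw [radd hB, radd hB]; exact rle hB (by linarith [hs.1, hs.2])
    calc 4 * B ^ ((h - a₁ - 2 * a₂) / 3) * W E γ (B ^ (a₁ + κ)) (B ^ (a₂ + κ))
        ≤ 4 * B ^ ((h - a₁ - 2 * a₂) / 3) *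
            (16 * (B ^ (a₁ + κ) * B ^ (a₂ + κ)) * n ^ 2) := by gcongr
      _ = 64 * (B ^ ((h - a₁ - 2 * a₂) / 3) * (B ^ (a₁ + κ) * B ^ (a₂ + κ)) * n ^ 2) := by ring
      _ ≤ 64 * (B ^ (h / 3 + θ) * n ^ 2) := by gcongr
      _ ≤ 64 * tgt θ d ε B x h n := by
          have := le_tgt₁ (θ := θ) (d := d) (ε := ε) (x := x) (h := h) hB hε.le hn0
          linarith
  · right
    by_cases hb : a₂ ≤ a₁ - 3 * (d / 8)
    · -- (b)
      left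
      refine sieve_step (a := a₁) (b := a₂) hB hε hC₁ hn0 hκ3 hκ4 hx2 (by linarith) ?_
        (by linarith) (by linarith) (by linarith)
      exact W_b hC₁ hC₁' hX hE hγ (rone hB (by linarith)) (hP _).le
    · by_cases hc : a₁ ≤ a₂ - 3 / 2 * (d / 8)
      · -- (c)
        left
        refine sieve_step (a := a₂) (b := a₁) hB hε hC₁ hn0 hκ3 hκ4 hx2 (by linarith) ?_
          (by linarith) (by linarith) (by linarith)
        exact W_c hC₁ hC₁' hX hE hγ (hP _).le (rone hB (by linarith))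
      · -- (d)
        right
        push Not at hb hc
        have hs' : θ / 2 ≤ a₁ + 2 * a₂ := by
          by_contra hlt
          push Not at hlt
          exact hs ⟨by linarith, by linarith⟩
        have hW := W_d hC₂ hC₂' hX hE hγ (rone hB (show 0 ≤ a₁ + κ by linarith))
          (rone hB (show 0 ≤ a₂ + κ by linarith))
        have c2 : (B ^ (a₁ + κ) * B ^ (a₂ + κ)) ^ 2 = B ^ (2 * (a₁ + κ + (a₂ + κ))) := by
          rw [radd hB, rpow_sq hB]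
        rw [c2] at hW
        have f1 : B ^ ((h - a₁ - 2 * a₂) / 3) * B ^ x ≤ B ^ (h / 3 + x - sav θ d) := by
          rw [radd hB]; exact rle hB (by linarith)
        have f2 : B ^ ((h - a₁ - 2 * a₂) / 3) * B ^ (2 * (a₁ + κ + (a₂ + κ))) ≤
            B ^ (h / 3 + x - sav θ d) := by
          rw [radd hB]; exact rle hB (by linarith)
        calc 4 * B ^ ((h - a₁ - 2 * a₂) / 3) * W E γ (B ^ (a₁ + κ)) (B ^ (a₂ + κ))
            ≤ 4 * B ^ ((h - a₁ - 2 * a₂) / 3) *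
                (C₂ * (B ^ x + B ^ (2 * (a₁ + κ + (a₂ + κ)))) * n) := by gcongr
          _ = 4 * C₂ * n * (B ^ ((h - a₁ - 2 * a₂) / 3) * B ^ x +
                B ^ ((h - a₁ - 2 * a₂) / 3) * B ^ (2 * (a₁ + κ + (a₂ + κ)))) := by ring
          _ ≤ 4 * C₂ * n * (B ^ (h / 3 + x - sav θ d) + B ^ (h / 3 + x - sav θ d)) := by gcongr
          _ = 8 * C₂ * (1 * (B ^ (h / 3 + x - sav θ d) * n)) := by ring
          _ ≤ 8 * C₂ * (B ^ ε * (B ^ (h / 3 + x - sav θ d) * n)) := by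
              have := (hP (h / 3 + x - sav θ d)).le
              have := rone hB hε.le
              gcongr
          _ ≤ 8 * C₂ * tgt θ d ε B x h n := by
              have := le_tgt₂ (θ := θ) (d := d) (ε := ε) (x := x) (h := h) hB hn0
              gcongr

end Vale.Agent.P006.LV
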