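import Vale.Agent.P006.LV.Level

/-!
P006, block LV: the moment bound CEN1.
-/

namespace Vale.Agent.P006.LV

open Finset

/-- exponents in the large values range -/
theorem exps {d₂ d e m σ s : ℝ} (hd₂ : 0 < d₂) (hd₂' : d₂ ≤ 1 / 6) (hd : d = d₂ / 300)
    (he : e = d ^ 2 / 2) (hm1 : 1 + d₂ ≤ m) (hm2 : m ≤ 2 - 2 * d₂) (hσ : 5 / 6 - d ≤ σ)
    (hs : d₂ / 64 ≤ s) :
    (m + 3 * e - 2 * m * σ) + m + 2 * (σ + e) ≤ 7 / 3 - e ∧
    (m + 3 * e - 2 * m * σ) + (2 / 3 * (m + (1 + e)) - s) + 2 * (σ + e) ≤ 7 / 3 - e ∧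
    (m + 3 * e - 2 * m * σ) + (m / 3 + (1 + e)) + 2 * (σ + e) ≤ 7 / 3 - e ∧
    1 / 24 ≤ m * (2 * σ - 3 / 2) - 1 / 24 - 3 * e := by
  have hd0 : 0 < d := by rw [hd]; positivity
  have hd1 : d ≤ 1 / 1800 := by rw [hd]; linarith
  have he0 : 0 < e := by rw [he]; positivity
  have he1 : e ≤ d / 3600 := by
    rw [he, sq]
    have := mul_le_mul_of_nonneg_right hd1 hd0.le
    linarith
  have h1 : 0 ≤ (σ - (5 / 6 - d)) * (m - 1) :=
    mul_nonneg (by linarith) (by linarith)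
  have h2 : d * (m - 1) ≤ d * 1 := mul_le_mul_of_nonneg_left (by linarith) hd0.le
  have h3 : 0 ≤ (m - 1) * (2 * σ - 3 / 2) := mul_nonneg (by linarith) (by linarith)
  refine ⟨by nlinarith, by nlinarith, by nlinarith, by nlinarith⟩

theorem exps_low {d e m : ℝ} (hd0 : 0 < d) (hd1 : d ≤ 1 / 10) (he : e = d ^ 2 / 2)
    (hm1 : (1 - d) / 2 ≤ m) (hm2 : m ≤ 1 - d) :
    e / 2 + m + (1 + e) + 2 * (5 / 6 - d) * (1 - m) ≤ 7 / 3 - e ∧
    e / 2 + m + m + 2 * (5 / 6 - d) * (1 - m) ≤ 7 / 3 - e ∧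
    e / 2 + m + (2 / 3 * (1 + e + m)) + 2 * (5 / 6 - d) * (1 - m) ≤ 7 / 3 - e := by
  have he0 : 0 < e := by rw [he]; positivity
  have h1 : 0 ≤ (m - (1 - d) / 2) * (2 / 3 - 2 * d) := mul_nonneg (by linarith) (by linarith)
  have h2 : 0 ≤ (1 - d - m) * d := mul_nonneg (by linarith) hd0.le
  have h3 : d ^ 2 ≤ 1 / 10 * d := by nlinarith
  refine ⟨by nlinarith, by nlinarith, by nlinarith⟩

/-- the part of small values -/
theorem low_part {d₀ d e : ℝ} (h0 : 0 < d₀) (hd0 : 0 < d) (hd1 : d ≤ 1 / 10) (hdd : d ≤ d₀)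
    (he : e = d ^ 2 / 2) : ∃ C : ℝ, 0 ≤ C ∧ ∀ B y : ℝ, 1 ≤ B → d₀ ≤ y → y ≤ 1 - d₀ →
    ∀ a : O → ℂ, (∀ n, ‖a n‖ ≤ 1) → ∀ T : Finset O, T ⊆ SB (B ^ (1 + e)) →
    (∀ k ∈ T, ‖∑ n ∈ PB (B ^ y), a n * ch n k‖ ≤ B ^ (y * (5 / 6 - d))) →
    ∑ k ∈ T, ‖∑ n ∈ PB (B ^ y), a n * ch n k‖ ^ (2 / y) ≤ C * B ^ (7 / 3 - e) := by
  have he0 : 0 < e := by rw [he]; positivity
  have he1 : e ≤ 1 := by rw [he]; nlinarith
  obtain ⟨C₁, hC₁, h₁⟩ := ls4 (ε := e / 16) (by positivity)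
  set J : ℕ := ⌈1 / d₀⌉₊ with hJ
  obtain ⟨C₂, hC₂, h₂⟩ := tau_pow_bound (ε := e / 16) (by positivity) J
  refine ⟨3 * C₂ ^ 2 * C₁, by positivity, ?_⟩
  intro B y hB hy hy1 a ha T hT hTV
  have hP' : ∀ a : ℝ, 0 < B ^ a := fun a => rpos hB a
  have hy0 : 0 < y := by linarith
  set j : ℕ := ⌊(1 - d) / y⌋₊ with hj
  have hr : 1 ≤ (1 - d) / y := by rw [le_div_iff₀ hy0]; linarith
  have hj1 : 1 ≤ j := Nat.le_floor (by simpa using hr)
  have hj2 : (j : ℝ) ≤ (1 - d) / y := Nat.floor_le (by linarith)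
  have hj3 : (1 - d) / y < j + 1 := Nat.lt_floor_add_one _
  have hj1' : (1 : ℝ) ≤ j := by exact_mod_cast hj1
  have hjJ : j ≤ J := by
    have h3 : (j : ℝ) ≤ J := by
      refine hj2.trans (le_trans ?_ (Nat.le_ceil (1 / d₀)))
      apply div_le_div₀ (by norm_num) (by linarith) h0 hy
    exact_mod_cast h3
  set m : ℝ := j * y with hm
  have hm2 : m ≤ 1 - d := by rw [le_div_iff₀ hy0] at hj2; exact hj2
  have hm1 : (1 - d) / 2 ≤ m := by
    rw [div_lt_iff₀ hy0] at hj3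
    nlinarith
  have hm0 : 0 ≤ m := by positivity
  obtain ⟨E1, E2, E3⟩ := exps_low hd0 hd1 he hm1 hm2
  obtain ⟨γ, hγ1, hγ2⟩ := pow_repr (rone hB hy0.le) ha j
  rw [rpow_jpow hB, ← hm] at hγ2
  set Γ : ℝ := C₂ * B ^ (e / 16) with hΓ
  have hΓ0 : 0 < Γ := mul_pos (by linarith) (hP' _)
  have hγΓ : ∀ b ∈ PB (B ^ m), ‖γ b‖ ≤ Γ := fun b hb =>
    (hγ1 b (mem_PB.1 hb).1).trans (h₂ B m hB hm0 (by linarith) j hjJ b hb)
  classical
  -- the large sieve for the `j`-th power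
  have hls : ∑ k ∈ SB (B ^ (1 + e)), ‖∑ b ∈ PB (B ^ m), γ b * ch b k‖ ^ 2 ≤
      Γ ^ 2 * (C₁ * (B ^ (1 + e) * B ^ m) ^ (e / 16) * (B ^ m *
        (B ^ (1 + e) + B ^ m + (B ^ (1 + e) * B ^ m) ^ (2 / 3 : ℝ)))) := by
    have h3 := h₁ (B ^ (1 + e)) (B ^ m) (rone hB (by linarith)) (rone hB hm0)
      (fun b => if b ∈ PB (B ^ m) then γ b / Γ else 0) (by
        intro b
        split_ifs with hb
        · rw [norm_div, Complex.norm_real, Real.norm_of_nonneg hΓ0.le]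
          exact div_le_one_of_le₀ (hγΓ b hb) hΓ0.le
        · simp)
    have h4 : ∀ k, ‖∑ b ∈ PB (B ^ m), γ b * ch b k‖ ^ 2 = Γ ^ 2 *
        ‖∑ b ∈ PB (B ^ m), (if b ∈ PB (B ^ m) then γ b / Γ else 0) * ch b k‖ ^ 2 := by
      intro k
      have h5 : ∑ b ∈ PB (B ^ m), γ b * ch b k = (Γ : ℂ) *
          ∑ b ∈ PB (B ^ m), (if b ∈ PB (B ^ m) then γ b / Γ else 0) * ch b k := by
        rw [mul_sum]
        refine sum_congr rfl fun b hb => ?_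
        rw [if_pos hb]
        have : (Γ : ℂ) ≠ 0 := by exact_mod_cast hΓ0.ne'
        field_simp
      rw [h5, norm_mul, mul_pow, Complex.norm_real, Real.norm_of_nonneg hΓ0.le]
    simp only [h4]
    rw [← mul_sum]
    exact mul_le_mul_of_nonneg_left h3 (sq_nonneg _)
  -- pointwise
  have hpt : ∀ k ∈ T, ‖∑ n ∈ PB (B ^ y), a n * ch n k‖ ^ (2 / y) ≤
      B ^ (2 * (5 / 6 - d) * (1 - m)) * ‖∑ b ∈ PB (B ^ m), γ b * ch b k‖ ^ 2 := by
    intro k hk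
    set g : ℝ := ‖∑ n ∈ PB (B ^ y), a n * ch n k‖ with hg
    have hg0 : 0 ≤ g := norm_nonneg _
    have hgV : g ≤ B ^ (y * (5 / 6 - d)) := hTV k hk
    have h3 : (2 : ℝ) / y = (2 * j : ℕ) + (2 / y - 2 * j) := by push_cast; ring
    have h4 : 0 ≤ 2 / y - 2 * (j : ℝ) := by
      have : (1 - d) / y ≤ 1 / y := div_le_div_of_nonneg_right (by linarith) hy0.le
      have h5 : (2 : ℝ) / y = 2 * (1 / y) := by ring
      rw [h5]; linarith
    have h6 : g ^ (2 / y) = (g ^ j) ^ 2 * g ^ (2 / y - 2 * (j : ℝ)) := by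
      nth_rewrite 1 [h3]
      rw [Real.rpow_add_of_nonneg hg0 (by positivity) h4, Real.rpow_natCast, mul_comm 2 j,
        pow_mul]
    rw [h6, ← hγ2 k, norm_pow, ← hg, mul_comm]
    refine mul_le_mul_of_nonneg_right ?_ (by positivity)
    calc g ^ (2 / y - 2 * (j : ℝ)) ≤ (B ^ (y * (5 / 6 - d))) ^ (2 / y - 2 * (j : ℝ)) :=
          Real.rpow_le_rpow hg0 hgV h4
      _ = B ^ (2 * (5 / 6 - d) * (1 - m)) := by
          rw [rmul hB]; congr 1; rw [hm]; field_simp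
  calc ∑ k ∈ T, ‖∑ n ∈ PB (B ^ y), a n * ch n k‖ ^ (2 / y)
      ≤ ∑ k ∈ T, B ^ (2 * (5 / 6 - d) * (1 - m)) * ‖∑ b ∈ PB (B ^ m), γ b * ch b k‖ ^ 2 :=
        sum_le_sum hpt
    _ ≤ ∑ k ∈ SB (B ^ (1 + e)),
          B ^ (2 * (5 / 6 - d) * (1 - m)) * ‖∑ b ∈ PB (B ^ m), γ b * ch b k‖ ^ 2 :=
        sum_le_sum_of_subset_of_nonneg hT fun _ _ _ =>
          mul_nonneg (hP' _).le (sq_nonneg _)
    _ = B ^ (2 * (5 / 6 - d) * (1 - m)) *
          ∑ k ∈ SB (B ^ (1 + e)), ‖∑ b ∈ PB (B ^ m), γ b * ch b k‖ ^ 2 := by rw [mul_sum]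
    _ ≤ B ^ (2 * (5 / 6 - d) * (1 - m)) * (Γ ^ 2 * (C₁ * (B ^ (1 + e) * B ^ m) ^ (e / 16) *
          (B ^ m * (B ^ (1 + e) + B ^ m + (B ^ (1 + e) * B ^ m) ^ (2 / 3 : ℝ))))) :=
        mul_le_mul_of_nonneg_left hls (hP' _).le
    _ ≤ B ^ (2 * (5 / 6 - d) * (1 - m)) * (C₂ ^ 2 * B ^ (e / 8) * (C₁ * B ^ (3 * e / 8) *
          (B ^ m * (B ^ (1 + e) + B ^ m + B ^ (2 / 3 * (1 + e + m)))))) := by
        have c1 : (B ^ (1 + e) * B ^ m) ^ (e / 16) ≤ B ^ (3 * e / 8) := by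
          rw [radd hB, rmul hB]; apply rle hB
          have : (1 + e + m) * (e / 16) ≤ 6 * (e / 16) :=
            mul_le_mul_of_nonneg_right (by linarith) (by positivity)
          linarith
        have c2 : (B ^ (1 + e) * B ^ m) ^ (2 / 3 : ℝ) = B ^ (2 / 3 * (1 + e + m)) := by
          rw [radd hB, rmul hB]; congr 1; ring
        have c3 : Γ ^ 2 = C₂ ^ 2 * B ^ (e / 8) := by
          rw [hΓ, mul_pow, rpow_sq hB]; congr 2; ring
        rw [c2, c3]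
        have := (hP' (2 * (5 / 6 - d) * (1 - m))).le
        have := (hP' (e / 8)).le
        have := (hP' m).le
        have := (hP' (1 + e)).le
        have := (hP' (2 / 3 * (1 + e + m))).le
        gcongr
    _ = C₂ ^ 2 * C₁ * (B ^ (2 * (5 / 6 - d) * (1 - m)) * B ^ (e / 8) * B ^ (3 * e / 8) * B ^ m *
          B ^ (1 + e) + B ^ (2 * (5 / 6 - d) * (1 - m)) * B ^ (e / 8) * B ^ (3 * e / 8) * B ^ m *
          B ^ m + B ^ (2 * (5 / 6 - d) * (1 - m)) * B ^ (e / 8) * B ^ (3 * e / 8) * B ^ m *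
          B ^ (2 / 3 * (1 + e + m))) := by ring
    _ ≤ C₂ ^ 2 * C₁ * (B ^ (7 / 3 - e) + B ^ (7 / 3 - e) + B ^ (7 / 3 - e)) := by
        refine mul_le_mul_of_nonneg_left (add_le_add (add_le_add ?_ ?_) ?_) (by positivity)
        · rw [radd hB, radd hB, radd hB, radd hB]; exact rle hB (by linarith)
        · rw [radd hB, radd hB, radd hB, radd hB]; exact rle hB (by linarith)
        · rw [radd hB, radd hB, radd hB, radd hB]; exact rle hB (by linarith)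
    _ = _ := by ring

/-- the part of large values -/
theorem high_part {d₀ d₂ d e : ℝ} (h0 : 0 < d₀) (h1 : d₀ ≤ 1 / 2) (hd₂ : d₂ = d₀ / 3)
    (hd : d = d₂ / 300) (he : e = d ^ 2 / 2) : ∃ C B₀ : ℝ, 0 ≤ C ∧ 1 < B₀ ∧
    ∀ B y : ℝ, B₀ ≤ B → d₀ ≤ y → y ≤ 1 - d₀ →
    ∀ a : O → ℂ, (∀ n, ‖a n‖ ≤ 1) → ∀ T : Finset O, T ⊆ SB (B ^ (1 + e)) →
    (∀ k ∈ T, B ^ (y * (5 / 6 - d)) ≤ ‖∑ n ∈ PB (B ^ y), a n * ch n k‖ ∧
      ‖∑ n ∈ PB (B ^ y), a n * ch n k‖ ≤ B ^ y) →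
    ∑ k ∈ T, ‖∑ n ∈ PB (B ^ y), a n * ch n k‖ ^ (2 / y) ≤ C * B ^ (7 / 3 - e) := by
  classical
  have hd₂0 : 0 < d₂ := by rw [hd₂]; positivity
  have hd₂1 : d₂ ≤ 1 / 6 := by rw [hd₂]; linarith
  have hd0 : 0 < d := by rw [hd]; positivity
  have hd1 : d ≤ 1 / 1800 := by rw [hd]; linarith
  have he0 : 0 < e := by rw [he]; positivity
  have he1 : e ≤ d / 3600 := by
    rw [he, sq]
    have := mul_le_mul_of_nonneg_right hd1 hd0.le
    linarith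
  set J : ℕ := ⌈3 / d₀⌉₊ with hJ
  obtain ⟨C, B₀, hC, hB₀, h₁⟩ := large_values (d₂ := d₂ / 2) (θ := 1 / 24) (ε := e) (ρ := 1 / 24)
    (by positivity) (by norm_num) he0 (by linarith) (by norm_num) J
  set I : ℕ := ⌊1 / e⌋₊ with hI
  refine ⟨(I + 1) * (3 * C), B₀, by positivity, hB₀, ?_⟩
  intro B y hBB hy hy1 a ha T hT hTV
  have hB : 1 ≤ B := hB₀.le.trans hBB
  have hP' : ∀ a : ℝ, 0 < B ^ a := fun a => rpos hB a
  have hy0 : 0 < y := by linarith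
  have hs : d₂ / 64 ≤ sav (1 / 24) (d₂ / 2 / 2) := by
    refine le_min ?_ ?_
    · linarith
    · linarith
  set j : ℕ := ⌈(1 + d₂) / y⌉₊ with hj
  have hj2 : (1 + d₂) / y ≤ j := Nat.le_ceil _
  have hj3 : (j : ℝ) < (1 + d₂) / y + 1 := Nat.ceil_lt_add_one (by positivity)
  have hjJ : j ≤ J := by
    have h3 : (j : ℝ) ≤ J := by
      refine le_trans ?_ (Nat.le_ceil (3 / d₀))
      have h4 : (1 + d₂) / y ≤ (1 + d₂) / d₀ := div_le_div_of_nonneg_left (by linarith) h0 hy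
      have h5 : (1 + d₂) / d₀ + 1 ≤ 3 / d₀ := by
        rw [div_add_one h0.ne']
        exact div_le_div_of_nonneg_right (by linarith) h0.le
      linarith
    exact_mod_cast h3
  set m : ℝ := j * y with hm
  have hm1 : 1 + d₂ ≤ m := by rw [div_le_iff₀ hy0] at hj2; exact hj2
  have hm2 : m ≤ 2 - 2 * d₂ := by
    have h3 : m < ((1 + d₂) / y + 1) * y := mul_lt_mul_of_pos_right hj3 hy0
    have h4 : ((1 + d₂) / y + 1) * y = 1 + d₂ + y := by field_simp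
    rw [h4] at h3
    linarith
  set G : O → ℝ := fun k => ‖∑ n ∈ PB (B ^ y), a n * ch n k‖ with hG
  set σ : ℕ → ℝ := fun i => 5 / 6 - d + e * i with hσ
  set Ti : ℕ → Finset O := fun i => T.filter (fun k => B ^ (y * σ i) ≤ G k ∧
    G k ≤ B ^ (y * (σ i + e))) with hTi
  have hcov : ∀ k ∈ T, ∃ t ∈ (range (I + 1)).sigma Ti, Sigma.snd t = k := by
    intro k hk
    obtain ⟨l1, l2⟩ := hTV k hk
    have hv1 : 1 ≤ G k / B ^ (y * (5 / 6 - d)) := by rw [le_div_iff₀ (hP' _)]; linarith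
    have hv2 : G k / B ^ (y * (5 / 6 - d)) ≤ B ^ (y * (1 / 6 + d)) := by
      rw [div_le_iff₀ (hP' _), radd hB]
      refine l2.trans (rle hB ?_)
      have : y * (1 / 6 + d) + y * (5 / 6 - d) = y := by ring
      linarith
    obtain ⟨i, hi, hi1, hi2⟩ := exists_grid hB (show 0 < y * e by positivity)
      (show 0 ≤ y * (1 / 6 + d) by positivity) hv1 hv2
    rw [le_div_iff₀ (hP' _), radd hB] at hi1
    rw [div_le_iff₀ (hP' _), radd hB] at hi2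
    refine ⟨⟨i, k⟩, ?_, rfl⟩
    simp only [mem_sigma, mem_range, hTi, mem_filter]
    refine ⟨?_, hk, ?_, ?_⟩
    · have h3 : (i : ℝ) ≤ 1 / e := by
        refine hi.trans ?_
        rw [div_le_div_iff₀ (by positivity) he0]
        have : (1 / 6 + d) * (y * e) ≤ 1 * (y * e) :=
          mul_le_mul_of_nonneg_right (by linarith) (by positivity)
        linarith
      exact Nat.lt_succ_of_le (Nat.le_floor h3)
    · refine le_trans (le_of_eq ?_) hi1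
      congr 1; rw [hσ]; ring
    · refine le_trans hi2 (le_of_eq ?_)
      congr 1; rw [hσ]; ring
  have hlev : ∀ i : ℕ, ∑ k ∈ Ti i, G k ^ (2 / y) ≤ 3 * C * B ^ (7 / 3 - e) := by
    intro i
    have hσi : 5 / 6 - d ≤ σ i := by
      have : 0 ≤ e * (i : ℝ) := by positivity
      rw [hσ]; simp only; linarith
    obtain ⟨E1, E2, E3, E4⟩ := exps hd₂0 hd₂1 hd he hm1 hm2 hσi hs
    have h3 := h₁ B hBB j y (σ i) (1 + e) hjJ hy0.le (by linarith) (by linarith) (by linarith)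
      (by linarith) (by rw [← hm]; linarith) a ha (Ti i) ((filter_subset _ _).trans hT)
      (fun k hk => (mem_filter.1 hk).2.1)
    rw [← hm] at h3
    have h4 : ∀ k ∈ Ti i, G k ^ (2 / y) ≤ B ^ (2 * (σ i + e)) := by
      intro k hk
      have h5 := (mem_filter.1 hk).2.2
      calc G k ^ (2 / y) ≤ (B ^ (y * (σ i + e))) ^ (2 / y) :=
            Real.rpow_le_rpow (norm_nonneg _) h5 (by positivity)
        _ = B ^ (2 * (σ i + e)) := by
            rw [rmul hB]; congr 1; field_simp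
    calc ∑ k ∈ Ti i, G k ^ (2 / y) ≤ ∑ k ∈ Ti i, B ^ (2 * (σ i + e)) := sum_le_sum h4
      _ = ((Ti i).card : ℝ) * B ^ (2 * (σ i + e)) := by simp
      _ ≤ (C * (B ^ (m + 3 * e - 2 * m * σ i) * (B ^ m + (B ^ (2 / 3 * (m + (1 + e)) -
            sav (1 / 24) (d₂ / 2 / 2)) + B ^ (m / 3 + (1 + e)))))) * B ^ (2 * (σ i + e)) :=
          mul_le_mul_of_nonneg_right h3 (hP' _).le
      _ = C * (B ^ (m + 3 * e - 2 * m * σ i) * B ^ m * B ^ (2 * (σ i + e)) +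
            B ^ (m + 3 * e - 2 * m * σ i) * B ^ (2 / 3 * (m + (1 + e)) -
              sav (1 / 24) (d₂ / 2 / 2)) * B ^ (2 * (σ i + e)) +
            B ^ (m + 3 * e - 2 * m * σ i) * B ^ (m / 3 + (1 + e)) * B ^ (2 * (σ i + e))) := by
          ring
      _ ≤ C * (B ^ (7 / 3 - e) + B ^ (7 / 3 - e) + B ^ (7 / 3 - e)) := by
          refine mul_le_mul_of_nonneg_left (add_le_add (add_le_add ?_ ?_) ?_) hC
          · rw [radd hB, radd hB]; exact rle hB (by linarith)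
          · rw [radd hB, radd hB]; exact rle hB (by linarith)
          · rw [radd hB, radd hB]; exact rle hB (by linarith)
      _ = _ := by ring
  have hcover := sum_le_of_cover T ((range (I + 1)).sigma Ti) (fun t => t.2)
    (fun k => G k ^ (2 / y)) (fun k => by positivity) hcov
  calc ∑ k ∈ T, G k ^ (2 / y) ≤ ∑ t ∈ (range (I + 1)).sigma Ti, G t.2 ^ (2 / y) := hcover
    _ = ∑ i ∈ range (I + 1), ∑ k ∈ Ti i, G k ^ (2 / y) := by rw [sum_sigma]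
    _ ≤ ∑ i ∈ range (I + 1), 3 * C * B ^ (7 / 3 - e) := sum_le_sum fun i _ => hlev i
    _ = _ := by
        rw [sum_const, card_range, nsmul_eq_mul]; push_cast; ring

/-- **CEN1**, coefficient form. -/
theorem cen1_core {d₀ : ℝ} (h0 : 0 < d₀) (h1 : d₀ ≤ 1 / 2) : ∃ e C : ℝ, 0 < e ∧ 1 ≤ C ∧
    ∀ B y : ℝ, 1 ≤ B → d₀ ≤ y → y ≤ 1 - d₀ → ∀ a : O → ℂ, (∀ n, ‖a n‖ ≤ 1) →
    ∑ k ∈ SB (B ^ (1 + e)), ‖∑ n ∈ PB (B ^ y), a n * ch n k‖ ^ (2 / y) ≤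
      C * B ^ (7 / 3 - e) := by
  classical
  set d₂ : ℝ := d₀ / 3 with hd₂
  set d : ℝ := d₂ / 300 with hd
  set e : ℝ := d ^ 2 / 2 with he
  have hd0 : 0 < d := by positivity
  have hd1 : d ≤ 1 / 1800 := by rw [hd, hd₂]; linarith
  have he0 : 0 < e := by positivity
  have he1 : e ≤ 1 := by rw [he]; nlinarith
  obtain ⟨C₁, hC₁, h₁⟩ := low_part (d₀ := d₀) (d := d) (e := e) h0 hd0 (by linarith)
    (by rw [hd, hd₂]; linarith) he
  obtain ⟨C₂, B₀, hC₂, hB₀, h₂⟩ := high_part (d₀ := d₀) h0 h1 hd₂ hd he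
  refine ⟨e, 1 + (4 : ℝ) ^ (2 / d₀) * (C₁ + C₂) + 4 * B₀ ^ (2 : ℝ) * (4 * B₀) ^ (2 / d₀), he0,
    ?_, ?_⟩
  · have : 0 ≤ (4 : ℝ) ^ (2 / d₀) * (C₁ + C₂) + 4 * B₀ ^ (2 : ℝ) * (4 * B₀) ^ (2 / d₀) := by
      positivity
    linarith
  intro B y hB hy hy1 a ha
  have hP' : ∀ a : ℝ, 0 < B ^ a := fun a => rpos hB a
  have hy0 : 0 < y := by linarith
  have h2y : 2 / y ≤ 2 / d₀ := div_le_div_of_nonneg_left (by norm_num) h0 hy
  have hF : ∀ k, ‖∑ n ∈ PB (B ^ y), a n * ch n k‖ ≤ 4 * B ^ y := by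
    intro k
    calc ‖∑ n ∈ PB (B ^ y), a n * ch n k‖ ≤ ∑ n ∈ PB (B ^ y), (1 : ℝ) := by
          refine (norm_sum_le _ _).trans (sum_le_sum fun n _ => ?_)
          rw [norm_mul]; exact mul_le_one₀ (ha n) (norm_nonneg _) (norm_ch_le n k)
      _ = ((PB (B ^ y)).card : ℝ) := by simp
      _ ≤ 4 * B ^ y := card_PB_le (hP' _).le
  have hB73 : 1 ≤ B ^ (7 / 3 - e) := rone hB (by linarith)
  rcases lt_or_ge B B₀ with hlt | hge
  · -- small `B`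
    have h3 : ∀ k ∈ SB (B ^ (1 + e)), ‖∑ n ∈ PB (B ^ y), a n * ch n k‖ ^ (2 / y) ≤
        (4 * B₀) ^ (2 / d₀) := by
      intro k _
      have h4 : B ^ y ≤ B₀ := by
        calc B ^ y ≤ B ^ (1 : ℝ) := rle hB (by linarith)
          _ = B := Real.rpow_one B
          _ ≤ B₀ := hlt.le
      calc ‖∑ n ∈ PB (B ^ y), a n * ch n k‖ ^ (2 / y) ≤ (4 * B₀) ^ (2 / y) :=
            Real.rpow_le_rpow (norm_nonneg _) ((hF k).trans (by linarith)) (by positivity)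
        _ ≤ (4 * B₀) ^ (2 / d₀) := Real.rpow_le_rpow_of_exponent_le (by linarith) h2y
    have h5 : ((SB (B ^ (1 + e))).card : ℝ) ≤ 4 * B₀ ^ (2 : ℝ) := by
      refine (card_SB_le (hP' _).le).trans ?_
      have : B ^ (1 + e) ≤ B₀ ^ (2 : ℝ) := by
        calc B ^ (1 + e) ≤ B ^ (2 : ℝ) := rle hB (by linarith)
          _ ≤ B₀ ^ (2 : ℝ) := Real.rpow_le_rpow (by linarith) hlt.le (by norm_num)
      linarith
    have h6 : 0 ≤ (4 * B₀) ^ (2 / d₀) := by positivity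
    have h7 : 0 ≤ (4 : ℝ) ^ (2 / d₀) * (C₁ + C₂) := by positivity
    calc ∑ k ∈ SB (B ^ (1 + e)), ‖∑ n ∈ PB (B ^ y), a n * ch n k‖ ^ (2 / y)
        ≤ ∑ k ∈ SB (B ^ (1 + e)), (4 * B₀) ^ (2 / d₀) := sum_le_sum h3
      _ = ((SB (B ^ (1 + e))).card : ℝ) * (4 * B₀) ^ (2 / d₀) := by simp
      _ ≤ 4 * B₀ ^ (2 : ℝ) * (4 * B₀) ^ (2 / d₀) := mul_le_mul_of_nonneg_right h5 h6
      _ ≤ (1 + (4 : ℝ) ^ (2 / d₀) * (C₁ + C₂) + 4 * B₀ ^ (2 : ℝ) * (4 * B₀) ^ (2 / d₀)) * 1 := by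
          linarith
      _ ≤ _ := by
          refine mul_le_mul_of_nonneg_left hB73 ?_
          have : 0 ≤ 4 * B₀ ^ (2 : ℝ) * (4 * B₀) ^ (2 / d₀) := by positivity
          linarith
  · -- large `B`
    set a' : O → ℂ := fun n => a n / 4 with ha'
    have ha'1 : ∀ n, ‖a' n‖ ≤ 1 := by
      intro n
      rw [ha']
      simp only [norm_div, Complex.norm_ofNat]
      have := ha n
      linarith
    have hscale : ∀ k, ‖∑ n ∈ PB (B ^ y), a n * ch n k‖ =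
        4 * ‖∑ n ∈ PB (B ^ y), a' n * ch n k‖ := by
      intro k
      have : ∑ n ∈ PB (B ^ y), a n * ch n k = 4 * ∑ n ∈ PB (B ^ y), a' n * ch n k := by
        rw [mul_sum]
        exact sum_congr rfl fun n _ => by rw [ha']; ring
      rw [this, norm_mul]; simp
    set G : O → ℝ := fun k => ‖∑ n ∈ PB (B ^ y), a' n * ch n k‖ with hG
    have hG1 : ∀ k, G k ≤ B ^ y := by
      intro k
      have h3 := hF k
      rw [hscale k] at h3
      have : 4 * G k ≤ 4 * B ^ y := h3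
      linarith
    set S := SB (B ^ (1 + e)) with hS
    have hlow := h₁ B y hB hy hy1 a' ha'1 (S.filter (fun k => G k ≤ B ^ (y * (5 / 6 - d))))
      (filter_subset _ _) (fun k hk => (mem_filter.1 hk).2)
    have hhigh := h₂ B y hge hy hy1 a' ha'1 (S.filter (fun k => ¬ G k ≤ B ^ (y * (5 / 6 - d))))
      (filter_subset _ _) (fun k hk => ⟨(not_le.1 (mem_filter.1 hk).2).le, hG1 k⟩)
    have hsum : ∑ k ∈ S, G k ^ (2 / y) ≤ (C₁ + C₂) * B ^ (7 / 3 - e) := by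
      rw [← sum_filter_add_sum_filter_not S (fun k => G k ≤ B ^ (y * (5 / 6 - d)))]
      rw [add_mul]
      exact add_le_add hlow hhigh
    calc ∑ k ∈ S, ‖∑ n ∈ PB (B ^ y), a n * ch n k‖ ^ (2 / y)
        = (4 : ℝ) ^ (2 / y) * ∑ k ∈ S, G k ^ (2 / y) := by
          rw [mul_sum]
          refine sum_congr rfl fun k _ => ?_
          rw [hscale k, Real.mul_rpow (by norm_num) (norm_nonneg _)]
      _ ≤ (4 : ℝ) ^ (2 / d₀) * ((C₁ + C₂) * B ^ (7 / 3 - e)) := by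
          have : (4 : ℝ) ^ (2 / y) ≤ (4 : ℝ) ^ (2 / d₀) :=
            Real.rpow_le_rpow_of_exponent_le (by norm_num) h2y
          have h3 : 0 ≤ ∑ k ∈ S, G k ^ (2 / y) := sum_nonneg fun k _ => by positivity
          exact mul_le_mul this hsum h3 (by positivity)
      _ = ((4 : ℝ) ^ (2 / d₀) * (C₁ + C₂)) * B ^ (7 / 3 - e) := by ring
      _ ≤ _ := by
          refine mul_le_mul_of_nonneg_right ?_ (hP' _).le
          have : 0 ≤ 4 * B₀ ^ (2 : ℝ) * (4 * B₀) ^ (2 / d₀) := by positivity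
          linarith

end Vale.Agent.P006.LV
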