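import Vale.Agent.P006.LV.Defs

/-!
P006, block LV: factorisations `z = u λ^j h₁ h₂² h₃³` and `b = b₁ s²`.
-/

namespace Vale.Agent.P006.LV

open Finset

theorem sq_prime_mul {π b : O} (hπ : Prime π) (hb : Squarefree b) (h : ¬ π ∣ b) :
    Squarefree (π * b) := by
  rw [squarefree_mul_iff]
  exact ⟨(hπ.irreducible.coprime_iff_not_dvd.2 h).isRelPrime, hπ.irreducible.squarefree, hb⟩

theorem cube_decomp : ∀ b : O, Primary b → ∃ h₁ h₂ h₃ : O, Primary h₁ ∧ Squarefree h₁ ∧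
    Primary h₂ ∧ Squarefree h₂ ∧ IsCoprime h₁ h₂ ∧ Primary h₃ ∧ b = h₁ * h₂ ^ 2 * h₃ ^ 3 := by
  refine Primary.induction ?_ ?_
  · exact ⟨1, 1, 1, primary_one, squarefree_one, primary_one, squarefree_one, isCoprime_one_left,
      primary_one, by ring⟩
  · rintro π b hπ hπp hb ⟨h₁, h₂, h₃, p1, s1, p2, s2, hc, p3, rfl⟩
    by_cases hd1 : π ∣ h₁
    · obtain ⟨k, rfl⟩ := hd1
      have hk : Primary k := hπp.of_mul p1
      have hd2 : ¬ π ∣ h₂ := by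
        intro h
        exact hπ.not_isUnit (hc.isUnit_of_dvd' (Dvd.intro k rfl) h)
      have hkc : IsCoprime k h₂ := hc.of_mul_left_right
      have hksq : Squarefree k := s1.squarefree_of_dvd (Dvd.intro_left π rfl)
      have hkπ : ¬ π ∣ k := by
        intro h
        obtain ⟨t, rfl⟩ := h
        have := s1 π ⟨t, by ring⟩
        exact hπ.not_isUnit this
      refine ⟨k, π * h₂, h₃, hk, hksq, hπp.mul p2, sq_prime_mul hπ s2 hd2, ?_, p3, by ring⟩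
      exact IsCoprime.mul_right ((hπ.irreducible.coprime_iff_not_dvd.2 hkπ).symm) hkc
    · by_cases hd2 : π ∣ h₂
      · obtain ⟨k, rfl⟩ := hd2
        have hk : Primary k := hπp.of_mul p2
        have hksq : Squarefree k := s2.squarefree_of_dvd (Dvd.intro_left π rfl)
        refine ⟨h₁, k, π * h₃, p1, s1, hk, hksq, hc.of_mul_right_right, hπp.mul p3, by ring⟩
      · refine ⟨π * h₁, h₂, h₃, hπp.mul p1, sq_prime_mul hπ s1 hd1, p2, s2, ?_, p3, by ring⟩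
        exact IsCoprime.mul_left (hπ.irreducible.coprime_iff_not_dvd.2 hd2) hc

theorem square_decomp : ∀ b : O, Primary b → ∃ b₁ s : O, Primary b₁ ∧ Squarefree b₁ ∧
    Primary s ∧ b = b₁ * s ^ 2 := by
  refine Primary.induction ?_ ?_
  · exact ⟨1, 1, primary_one, squarefree_one, primary_one, by ring⟩
  · rintro π b hπ hπp hb ⟨b₁, s, p1, s1, ps, rfl⟩
    by_cases hd1 : π ∣ b₁
    · obtain ⟨k, rfl⟩ := hd1
      have hk : Primary k := hπp.of_mul p1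
      have hksq : Squarefree k := s1.squarefree_of_dvd (Dvd.intro_left π rfl)
      exact ⟨k, π * s, hk, hksq, hπp.mul ps, by ring⟩
    · exact ⟨π * b₁, s, hπp.mul p1, sq_prime_mul hπ s1 hd1, ps, by ring⟩

/-- the six units -/
def U6 : Finset O := {1, om, om ^ 2, -1, -om, -(om ^ 2)}

theorem card_U6_le : U6.card ≤ 6 := by decide

theorem mem_U6 {u : O} (h : IsUnit u) : u ∈ U6 := by
  have := isUnit_cases h
  simp only [U6, mem_insert, mem_singleton]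
  exact this

theorem exists_lam_pow {z : O} (hz : z ≠ 0) : ∃ (j : ℕ) (w : O), z = lam ^ j * w ∧ ¬ lam ∣ w := by
  have hf : FiniteMultiplicity lam z :=
    FiniteMultiplicity.of_prime_left prime_lam hz
  exact ⟨_, hf.exists_eq_pow_mul_and_not_dvd⟩

theorem full_decomp {z : O} (hz : z ≠ 0) : ∃ u ∈ U6, ∃ (j : ℕ) (h₁ h₂ h₃ : O), Primary h₁ ∧
    Squarefree h₁ ∧ Primary h₂ ∧ Squarefree h₂ ∧ IsCoprime h₁ h₂ ∧ Primary h₃ ∧
    z = u * lam ^ j * h₃ ^ 3 * (h₁ * h₂ ^ 2) ∧ 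
    N z = 3 ^ j * (N h₃ ^ 3 * (N h₁ * N h₂ ^ 2)) := by
  obtain ⟨j, w, rfl, hw⟩ := exists_lam_pow hz
  obtain ⟨v, hv, hp⟩ := exists_unit_mul_primary hw
  obtain ⟨h₁, h₂, h₃, p1, s1, p2, s2, hc, p3, he⟩ := cube_decomp _ hp
  obtain ⟨v', rfl⟩ := hv
  have h1 : w = ((v'⁻¹ : Oˣ) : O) * (h₁ * h₂ ^ 2 * h₃ ^ 3) := by
    rw [← he, ← mul_assoc, Units.inv_mul, one_mul]
  have hu : IsUnit ((v'⁻¹ : Oˣ) : O) := Units.isUnit _
  refine ⟨_, mem_U6 hu, j, h₁, h₂, h₃, p1, s1, p2, s2, hc, p3, ?_, ?_⟩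
  · rw [h1]; ring
  · rw [h1]; simp only [N_mul, N_pow, N_lam, isUnit_iff_N.1 hu]; ring

end Vale.Agent.P006.LV
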