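import Vale.Agent.P006.H845.Count
import Vale.Agent.P006.CR.Symbol

/-!
P006, block LV (large values, centre range): common definitions and the inputs.
-/

namespace Vale.Agent.P006.LV

open Finset

/-- squarefree primary elements of norm at most `X` -/
noncomputable def SB (X : ℝ) : Finset O := by
  classical exact (PB X).filter Squarefree

theorem mem_SB {X : ℝ} {c : O} : c ∈ SB X ↔ Primary c ∧ Squarefree c ∧ (N c : ℝ) ≤ X := by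
  classical
  simp only [SB, mem_filter, mem_PB]
  tauto

theorem SB_subset_PB (X : ℝ) : SB X ⊆ PB X := fun c hc => by
  rw [mem_SB] at hc; rw [mem_PB]; exact ⟨hc.1, hc.2.2⟩

theorem SB_mono {X Y : ℝ} (h : X ≤ Y) : SB X ⊆ SB Y := fun c hc => by
  rw [mem_SB] at *; exact ⟨hc.1, hc.2.1, hc.2.2.trans h⟩

/-- nonzero elements of norm at most `X` -/
noncomputable def NZ (X : ℝ) : Finset O := (ballO ⌊X⌋₊).erase 0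

theorem mem_NZ {X : ℝ} {z : O} : z ∈ NZ X ↔ z ≠ 0 ∧ (N z : ℝ) ≤ X := by
  rw [NZ, mem_erase, mem_ballO]
  refine and_congr_right fun hz => ?_
  have h := N_pos hz
  constructor
  · intro h2
    have h3 : ⌊X⌋₊ ≠ 0 := by omega
    exact (Nat.le_floor_iff' (by omega)).1 h2
  · intro h2
    exact (Nat.le_floor_iff' (by omega)).2 h2

/-- the cubic symbol `χ_b(k) = (k/b)_3` as a complex number -/
noncomputable def ch (b k : O) : ℂ := toC (sym k b)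

theorem norm_ch_le (b k : O) : ‖ch b k‖ ≤ 1 := norm_sym_le k b

theorem ch_mul (b k l : O) : ch b (k * l) = ch b k * ch b l := by
  rw [ch, sym_mul_left, map_mul]; rfl

theorem ch_pow (b k : O) (n : ℕ) : ch b (k ^ n) = ch b k ^ n := by
  rw [ch, sym_pow_left, map_pow]; rfl

theorem mul_ch {b c : O} (hb : b ≠ 0) (hc : c ≠ 0) (k : O) : ch (b * c) k = ch b k * ch c k := by
  rw [ch, sym_mul_right k hb hc, map_mul]; rfl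

theorem conj_ch (b k : O) : (starRingEnd ℂ) (ch b k) = ch b k ^ 2 := conj_sym k b

/-- the cubic large sieve (squarefree primary moduli on both sides) -/
def HBsq : Prop := ∀ ε : ℝ, 0 < ε → ∃ C : ℝ, 0 ≤ C ∧ ∀ R K : ℝ, 1 ≤ R → 1 ≤ K → ∀ γ : O → ℂ,
  ∑ k ∈ SB K, ‖∑ r ∈ SB R, γ r * ch r k‖ ^ 2 ≤
    C * (R * K) ^ ε * (R + K + (R * K) ^ (2 / 3 : ℝ)) * ∑ r ∈ SB R, ‖γ r‖ ^ 2

/-- the cubic large sieve over all frequencies -/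
def Bfull : Prop := ∀ ε : ℝ, 0 < ε → ∃ C : ℝ, 0 ≤ C ∧ ∀ X H : ℝ, 1 ≤ X → 1 ≤ H → ∀ γ : O → ℂ,
  ∑ h ∈ NZ H, ‖∑ r ∈ SB X, γ r * ch r h‖ ^ 2 ≤
    C * (H * X) ^ ε * (H + H ^ (1 / 3 : ℝ) * X + (H * X) ^ (2 / 3 : ℝ)) *
      ∑ r ∈ SB X, ‖γ r‖ ^ 2

open Classical in
/-- the classical large sieve -/
def CLSq : Prop := ∃ C : ℝ, 0 ≤ C ∧ ∀ R Q₁ Q₂ : ℝ, 1 ≤ R → 1 ≤ Q₁ → 1 ≤ Q₂ → ∀ γ : O → ℂ,
  ∑ k₁ ∈ SB Q₁, ∑ k₂ ∈ (SB Q₂).filter (IsCoprime k₁ ·),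
      ‖∑ r ∈ SB R, γ r * (ch r k₁ * ch r k₂ ^ 2)‖ ^ 2 ≤
    C * (R + (Q₁ * Q₂) ^ 2) * ∑ r ∈ SB R, ‖γ r‖ ^ 2

/-- the Poisson inequality `(P*)` -/
def PStar : Prop := ∀ ε : ℝ, 0 < ε → ∀ A : ℕ, ∃ C : ℝ, 0 ≤ C ∧ ∀ K M : ℝ, 1 ≤ K → 1 ≤ M →
  ∀ c : O → ℂ, (∀ k, c k ≠ 0 → k ∈ SB K ∧ K / 2 < N k) →
  ∀ Φ : O → ℝ → ℝ,
  (∀ e ∈ SB K, ∀ H : ℝ, 1 ≤ H → ∀ x : O → ℂ, (∀ k, x k ≠ 0 → Primary k ∧ Squarefree k) →
    (∀ k, ‖x k‖ ≤ ‖c (e * k)‖) →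
    ∑ h ∈ NZ H, ‖∑ k ∈ SB K, x k * ch k h‖ ^ 2 ≤ Φ e H) →
  ∀ G : O → ℝ,
  (∀ e ∈ SB K, ∀ d f : O, Primary d → Primary f → d ∣ e → f ∣ d → ∀ H : ℝ, 1 ≤ H →
    (M * N d / (K * N f)) * min 1 (((N f : ℝ) * K ^ 2 / ((N d : ℝ) ^ 2 * M * H)) ^ A) * Φ e H
      ≤ G e) →
  ∑ b ∈ PB M, ‖∑ k ∈ SB K, c k * ch b k‖ ^ 2 ≤
    C * (K * M) ^ ε * (M * ∑ k ∈ SB K, ‖c k‖ ^ 2 + ∑ e ∈ SB K, G e)

end Vale.Agent.P006.LV
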