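import Vale.Agent.P006.LV.CellExp

/-!
P006, block LV: the exponents in the dual bound.
-/

namespace Vale.Agent.P006.LV

open Finset

/-- the target of the dual bound (without the diagonal and constants) -/
noncomputable def dtgt (θ d₂ ε B m q n : ℝ) : ℝ :=
  B ^ ε * (B ^ (m / 2 + θ) * n ^ 2 +
    (B ^ (2 / 3 * (m + q) - sav θ (d₂ / 2)) + B ^ (m / 3 + q)) * n)

theorem dtgt_nonneg {θ d₂ ε B m q n : ℝ} (hB : 1 ≤ B) (hn : 0 ≤ n) :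
    0 ≤ dtgt θ d₂ ε B m q n := by
  unfold dtgt
  have := (rpos hB ε).le
  have := (rpos hB (m / 2 + θ)).le
  have := (rpos hB (2 / 3 * (m + q) - sav θ (d₂ / 2))).le
  have := (rpos hB (m / 3 + q)).le
  positivity

theorem dtgt_mono {θ d₂ ε B m q n n' : ℝ} (hB : 1 ≤ B) (hn : 0 ≤ n) (h : n ≤ n') :
    dtgt θ d₂ ε B m q n ≤ dtgt θ d₂ ε B m q n' := by
  unfold dtgt
  have := (rpos hB ε).le
  have := (rpos hB (m / 2 + θ)).le
  have := (rpos hB (2 / 3 * (m + q) - sav θ (d₂ / 2))).le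
  have := (rpos hB (m / 3 + q)).le
  gcongr

theorem dtgt_mul {θ d₂ ε ε' B m q n : ℝ} (hB : 1 ≤ B) :
    B ^ ε' * dtgt θ d₂ ε B m q n = dtgt θ d₂ (ε' + ε) B m q n := by
  unfold dtgt
  rw [← mul_assoc, radd hB]

theorem dtgt_mono_eps {θ d₂ ε ε' B m q n : ℝ} (hB : 1 ≤ B) (hn : 0 ≤ n) (h : ε ≤ ε') :
    dtgt θ d₂ ε B m q n ≤ dtgt θ d₂ ε' B m q n := by
  unfold dtgt
  have := (rpos hB (m / 2 + θ)).le
  have := (rpos hB (2 / 3 * (m + q) - sav θ (d₂ / 2))).le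
  have := (rpos hB (m / 3 + q)).le
  exact mul_le_mul_of_nonneg_right (rle hB h) (by positivity)

/-- auxiliary: three-term estimate -/
theorem three_terms {P a x y z n u v w C : ℝ} (hC : 0 ≤ C) (hn : 0 ≤ n)
    (h1 : P * (a * x) ≤ u) (h2 : P * (a * y) ≤ v) (h3 : P * (a * z) ≤ w) :
    P * (C * (a * (x * n ^ 2 + (y + z) * n))) ≤ C * (u * n ^ 2 + (v + w) * n) := by
  calc P * (C * (a * (x * n ^ 2 + (y + z) * n)))
      = C * ((P * (a * x)) * n ^ 2 + (P * (a * y) + P * (a * z)) * n) := by ring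
    _ ≤ _ := by gcongr

theorem three_terms' {P a x y z n u v w C : ℝ} (hC : 0 ≤ C) (hn : 0 ≤ n) (hu : 0 ≤ u)
    (hv : 0 ≤ v) (h1 : P * (a * x) ≤ w) (h2 : P * (a * y) ≤ v) (h3 : P * (a * z) ≤ w) :
    P * (C * a * (x + y + z) * n) ≤ 2 * C * (u * n ^ 2 + (v + w) * n) := by
  have hun : 0 ≤ u * n ^ 2 := by positivity
  have hvn : 0 ≤ v * n := by positivity
  calc P * (C * a * (x + y + z) * n)
      = C * ((P * (a * x) + P * (a * y) + P * (a * z)) * n) := by ring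
    _ ≤ C * ((w + v + w) * n) := by gcongr
    _ ≤ C * (2 * (u * n ^ 2 + (v + w) * n)) := by
        apply mul_le_mul_of_nonneg_left _ hC
        linarith [add_mul v w n, add_mul (w + v) w n, add_mul w v n]
    _ = _ := by ring

theorem dtgt_eq {θ d₂ ε B m q n : ℝ} : dtgt θ d₂ ε B m q n = B ^ ε * B ^ (m / 2 + θ) * n ^ 2 +
    (B ^ ε * B ^ (2 / 3 * (m + q) - sav θ (d₂ / 2)) + B ^ ε * B ^ (m / 3 + q)) * n := by
  unfold dtgt; ring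

theorem le_dtgt₁ {θ d₂ ε B m q n : ℝ} (hB : 1 ≤ B) (hn : 0 ≤ n) :
    B ^ ε * B ^ (m / 2 + θ) * n ^ 2 ≤ dtgt θ d₂ ε B m q n := by
  rw [dtgt_eq]
  have h1 := (rpos hB ε).le
  have h2 := (rpos hB (2 / 3 * (m + q) - sav θ (d₂ / 2))).le
  have h3 := (rpos hB (m / 3 + q)).le
  exact le_add_of_nonneg_right (by positivity)

theorem combine {C₁ C₂ D a : ℝ} (hC₁ : 0 ≤ C₁) (hC₂ : 0 ≤ C₂) (hD : 0 ≤ D)
    (h : a ≤ 25 * D ∨ a ≤ C₁ * D ∨ a ≤ 2 * C₂ * D) : a ≤ (25 + C₁ + 2 * C₂) * D := by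
  have h1 := mul_nonneg hC₁ hD
  have h2 := mul_nonneg hC₂ hD
  have h3 : (25 + C₁ + 2 * C₂) * D = 25 * D + C₁ * D + 2 * (C₂ * D) := by ring
  rw [h3]
  rcases h with h | h | h
  · linarith
  · linarith
  · rw [mul_assoc] at h; linarith

theorem weight_far {θ d₂ ε ε' : ℝ} (hθ : 0 < θ) (hε : 0 < ε) (hd : 0 < d₂) (hε'0 : 0 < ε')
    {A : ℕ} (hA : 2 + 40 / ε' ≤ A)
    {B q m k δ φ h n T : ℝ} (hB : 1 ≤ B)
    (hq : q ≤ 2) (hm : m ≤ 3) (hqm : q + d₂ ≤ m) (hφ : 0 ≤ φ) (hφδ : φ ≤ δ)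
    (hδk : δ ≤ k) (hk : k ≤ q) (hn : 0 ≤ n)
    (T1 : T ≤ 25 * B ^ (2 * h) * n ^ 2) (hcase : φ + 2 * k - 2 * δ - m + ε' ≤ h) :
    B ^ (m + δ - k - φ) * B ^ (A * (φ + 2 * k - 2 * δ - m - h)) * T ≤
      25 * dtgt θ d₂ ε B m q n := by
  have hP : ∀ a : ℝ, 0 < B ^ a := fun a => rpos hB a
  have hA2 : 40 ≤ (A - 2) * ε' := by
    have : 40 / ε' ≤ A - 2 := by linarith
    rwa [div_le_iff₀ hε'0] at this
  have h0 : (0 : ℝ) ≤ A - 2 := by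
    have : 0 < 40 / ε' := by positivity
    linarith
  have e1 : (A - 2 : ℝ) * (φ + 2 * k - 2 * δ - m - h) ≤ -40 := by
    have : (A - 2 : ℝ) * (φ + 2 * k - 2 * δ - m - h) ≤ (A - 2 : ℝ) * (-ε') :=
      mul_le_mul_of_nonneg_left (by linarith) h0
    linarith
  have e2 : A * (φ + 2 * k - 2 * δ - m - h) + 2 * h =
      (A - 2 : ℝ) * (φ + 2 * k - 2 * δ - m - h) + 2 * (φ + 2 * k - 2 * δ - m) := by ring
  have e3 : B ^ (m + δ - k - φ) * B ^ (A * (φ + 2 * k - 2 * δ - m - h)) * B ^ (2 * h) ≤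
      B ^ ε * B ^ (m / 2 + θ) := by
    rw [radd hB, radd hB, radd hB]
    apply rle hB
    linarith
  calc B ^ (m + δ - k - φ) * B ^ (A * (φ + 2 * k - 2 * δ - m - h)) * T
      ≤ B ^ (m + δ - k - φ) * B ^ (A * (φ + 2 * k - 2 * δ - m - h)) *
          (25 * B ^ (2 * h) * n ^ 2) :=
        mul_le_mul_of_nonneg_left T1 (mul_nonneg (hP _).le (hP _).le)
    _ = 25 * ((B ^ (m + δ - k - φ) * B ^ (A * (φ + 2 * k - 2 * δ - m - h)) * B ^ (2 * h))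
          * n ^ 2) := by ring
    _ ≤ 25 * (B ^ ε * B ^ (m / 2 + θ) * n ^ 2) :=
        mul_le_mul_of_nonneg_left (mul_le_mul_of_nonneg_right e3 (sq_nonneg n)) (by norm_num)
    _ ≤ 25 * dtgt θ d₂ ε B m q n :=
        mul_le_mul_of_nonneg_left (le_dtgt₁ hB hn) (by norm_num)

theorem weight_ref {θ d₂ ε ε' C₁ : ℝ} (hε : 0 < ε) (hd : 0 < d₂)
    (hε'1 : ε' ≤ ε / 4) (hC₁ : 0 ≤ C₁) {B q m k δ φ η h n T : ℝ} (hB : 1 ≤ B)
    (hφ : 0 ≤ φ) (hφδ : φ ≤ δ) (hδη : δ ≤ η)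
    (hk : k ≤ q) (hh : 0 ≤ h) (hn : 0 ≤ n)
    (T2 : T ≤ C₁ * tgt θ (d₂ / 2) (ε / 4) B (k - η) h n)
    (hcase : h < φ + 2 * k - 2 * δ - m + ε') :
    B ^ (m + δ - k - φ) * T ≤ C₁ * dtgt θ d₂ ε B m q n := by
  have hP : ∀ a : ℝ, 0 < B ^ a := fun a => rpos hB a
  have g := three_terms (P := B ^ (m + δ - k - φ)) (a := B ^ (ε / 4)) (x := B ^ (h / 3 + θ))
    (y := B ^ (h / 3 + (k - η) - sav θ (d₂ / 2))) (z := B ^ (2 / 3 * (h + (k - η))))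
    (n := n) (u := B ^ ε * B ^ (m / 2 + θ))
    (v := B ^ ε * B ^ (2 / 3 * (m + q) - sav θ (d₂ / 2))) (w := B ^ ε * B ^ (m / 3 + q))
    hC₁ hn
    (by rw [radd hB, radd hB, radd hB]; exact rle hB (by linarith))
    (by rw [radd hB, radd hB, radd hB]; exact rle hB (by linarith))
    (by rw [radd hB, radd hB, radd hB]; exact rle hB (by linarith))
  calc B ^ (m + δ - k - φ) * T
      ≤ B ^ (m + δ - k - φ) * (C₁ * tgt θ (d₂ / 2) (ε / 4) B (k - η) h n) :=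
        mul_le_mul_of_nonneg_left T2 (hP _).le
    _ ≤ C₁ * dtgt θ d₂ ε B m q n := by
        rw [dtgt_eq]; exact g

theorem weight_full {θ d₂ ε ε' C₂ : ℝ} (hε : 0 < ε) (hε1 : ε ≤ 1) (hd : 0 < d₂)
    (hε'1 : ε' ≤ ε / 4) (hC₂ : 0 ≤ C₂) {B q m k δ φ η h n T : ℝ} (hB : 1 ≤ B)
    (hq : q ≤ 2) (hqm : q + d₂ ≤ m) (hφ : 0 ≤ φ) (hφδ : φ ≤ δ) (hδη : δ ≤ η)
    (hηk : η ≤ k) (hk : k ≤ q) (hn : 0 ≤ n)
    (T3 : T ≤ C₂ * B ^ ((h + (k - η)) * (ε / 40)) *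
      (B ^ h + B ^ (h / 3 + (k - η)) + B ^ (2 / 3 * (h + (k - η)))) * n)
    (hcase : h < φ + 2 * k - 2 * δ - m + ε') (hη : d₂ / 8 < η - δ) :
    B ^ (m + δ - k - φ) * T ≤ 2 * C₂ * dtgt θ d₂ ε B m q n := by
  have hP : ∀ a : ℝ, 0 < B ^ a := fun a => rpos hB a
  have hs1 : sav θ (d₂ / 2) ≤ d₂ / 2 / 16 := min_le_left _ _
  have c1 : B ^ ((h + (k - η)) * (ε / 40)) ≤ B ^ (ε / 4) := by
    apply rle hB
    have h1 : h + (k - η) ≤ 10 := by linarith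
    have h2 : (h + (k - η)) * (ε / 40) ≤ 10 * (ε / 40) :=
      mul_le_mul_of_nonneg_right h1 (by positivity)
    linarith
  have g := three_terms' (P := B ^ (m + δ - k - φ)) (a := B ^ (ε / 4)) (x := B ^ h)
    (y := B ^ (h / 3 + (k - η))) (z := B ^ (2 / 3 * (h + (k - η))))
    (n := n) (u := B ^ ε * B ^ (m / 2 + θ))
    (v := B ^ ε * B ^ (2 / 3 * (m + q) - sav θ (d₂ / 2))) (w := B ^ ε * B ^ (m / 3 + q))
    hC₂ hn (mul_nonneg (hP _).le (hP _).le) (mul_nonneg (hP _).le (hP _).le)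
    (by rw [radd hB, radd hB, radd hB]; exact rle hB (by linarith))
    (by rw [radd hB, radd hB, radd hB]; exact rle hB (by linarith))
    (by rw [radd hB, radd hB, radd hB]; exact rle hB (by linarith))
  calc B ^ (m + δ - k - φ) * T ≤ B ^ (m + δ - k - φ) * (C₂ * B ^ (ε / 4) *
          (B ^ h + B ^ (h / 3 + (k - η)) + B ^ (2 / 3 * (h + (k - η)))) * n) := by
        refine mul_le_mul_of_nonneg_left (T3.trans ?_) (hP _).le
        have := (hP h).le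
        have := (hP (h / 3 + (k - η))).le
        have := (hP (2 / 3 * (h + (k - η)))).le
        gcongr
    _ ≤ 2 * C₂ * dtgt θ d₂ ε B m q n := by
        rw [dtgt_eq]; exact g

theorem weight_exp {θ d₂ ε C₁ C₂ : ℝ} (hθ : 0 < θ) (hd : 0 < d₂) (hε : 0 < ε) (hε1 : ε ≤ 1)
    (hC₁ : 0 ≤ C₁) (hC₂ : 0 ≤ C₂) {A : ℕ} (hA : 2 + 40 / min (ε / 4) (d₂ / 4) ≤ A)
    {B q m k δ φ η h n T : ℝ} (hB : 1 ≤ B)
    (hq : q ≤ 2) (hm : m ≤ 3) (hqm : q + d₂ ≤ m) (hφ : 0 ≤ φ) (hφδ : φ ≤ δ) (hδη : δ ≤ η)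
    (hηk : η ≤ k) (hk : k ≤ q) (hh : 0 ≤ h) (hn : 0 ≤ n) (hT0 : 0 ≤ T)
    (T1 : T ≤ 25 * B ^ (2 * h) * n ^ 2)
    (T2 : h + d₂ / 2 ≤ k - η → T ≤ C₁ * tgt θ (d₂ / 2) (ε / 4) B (k - η) h n)
    (T3 : T ≤ C₂ * B ^ ((h + (k - η)) * (ε / 40)) *
      (B ^ h + B ^ (h / 3 + (k - η)) + B ^ (2 / 3 * (h + (k - η)))) * n) :
    B ^ (m + δ - k - φ) * min 1 (B ^ (A * (φ + 2 * k - 2 * δ - m - h))) * T ≤
      (25 + C₁ + 2 * C₂) * dtgt θ d₂ ε B m q n := by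
  have hP : ∀ a : ℝ, 0 < B ^ a := fun a => rpos hB a
  have hε'0 : 0 < min (ε / 4) (d₂ / 4) := lt_min (by positivity) (by positivity)
  have hε'1 : min (ε / 4) (d₂ / 4) ≤ ε / 4 := min_le_left _ _
  have hε'2 : min (ε / 4) (d₂ / 4) ≤ d₂ / 4 := min_le_right _ _
  have hPT : 0 ≤ B ^ (m + δ - k - φ) * T := mul_nonneg (hP _).le hT0
  refine combine hC₁ hC₂ (dtgt_nonneg hB hn) ?_
  by_cases hcase : φ + 2 * k - 2 * δ - m + min (ε / 4) (d₂ / 4) ≤ h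
  · left
    refine le_trans ?_ (weight_far hθ hε hd hε'0 hA hB hq hm hqm hφ hφδ (hδη.trans hηk) hk hn T1
      hcase)
    refine mul_le_mul_of_nonneg_right ?_ hT0
    exact mul_le_mul_of_nonneg_left (min_le_right _ _) (hP _).le
  · right
    push Not at hcase
    have hmin : B ^ (m + δ - k - φ) * min 1 (B ^ (A * (φ + 2 * k - 2 * δ - m - h))) * T ≤
        B ^ (m + δ - k - φ) * T := by
      refine mul_le_mul_of_nonneg_right ?_ hT0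
      exact mul_le_of_le_one_right (hP _).le (min_le_left _ _)
    by_cases hη : η - δ ≤ d₂ / 8
    · left
      exact hmin.trans (weight_ref hε hd hε'1 hC₁ hB hφ hφδ hδη hk hh hn
        (T2 (by linarith)) hcase)
    · right
      push Not at hη
      exact hmin.trans (weight_full hε hε1 hd hε'1 hC₂ hB hq hqm hφ hφδ hδη hηk hk hn T3
        hcase hη)

end Vale.Agent.P006.LV
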