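import Vale.Agent.P006.LV.TRef
import Vale.Agent.P006.LV.DualExp

/-!
P006, block LV: the dual bound
`∑_{N b ≤ M} |∑_{k∈E} c_k χ_b(k)|²` for an arbitrary set `E` of squarefree primary `k`.
-/

namespace Vale.Agent.P006.LV

open Finset

theorem card_NZ_le {H : ℝ} (hH : 1 ≤ H) : ((NZ H).card : ℝ) ≤ 25 * H ^ 2 := by
  set n := ⌊H⌋₊ with hn
  have h1 : NZ H ⊆ (Finset.Icc (-(n + 1 : ℤ)) (n + 1) ×ˢ Finset.Icc (-(n + 1 : ℤ)) (n + 1)).image
    (fun p => (⟨p.1, p.2⟩ : O)) := by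
    intro z hz
    rw [NZ, mem_erase, ballO, mem_filter] at hz
    exact hz.2.1
  have h2 := (card_le_card h1).trans card_image_le
  rw [card_product, Int.card_Icc] at h2
  have h3 : ((n + 1 : ℤ) + 1 - (-(n + 1 : ℤ))).toNat = 2 * n + 3 := by omega
  rw [h3] at h2
  have h4 : (n : ℝ) ≤ H := Nat.floor_le (by linarith)
  have h5 : ((NZ H).card : ℝ) ≤ (2 * n + 3) * (2 * n + 3) := by exact_mod_cast h2
  have h6 : (0 : ℝ) ≤ n := by positivity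
  nlinarith

/-- the quadratic form over all frequencies -/
noncomputable def Tq (H : ℝ) (S : Finset O) (x : O → ℂ) : ℝ :=
  ∑ h ∈ NZ H, ‖∑ k ∈ S, x k * ch k h‖ ^ 2

theorem Tq_nonneg {H : ℝ} {S : Finset O} {x : O → ℂ} : 0 ≤ Tq H S x := by
  unfold Tq; positivity

theorem Tq_triv {H : ℝ} (hH : 1 ≤ H) {S : Finset O} {x : O → ℂ} (hx : ∀ k, ‖x k‖ ≤ 1) :
    Tq H S x ≤ 25 * H ^ 2 * (S.card : ℝ) ^ 2 := by
  calc Tq H S x ≤ ∑ h ∈ NZ H, (S.card : ℝ) ^ 2 :=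
        sum_le_sum fun h _ => norm_sum_sq_le hx fun r => norm_ch_le r h
    _ = (NZ H).card * (S.card : ℝ) ^ 2 := by simp
    _ ≤ _ := mul_le_mul_of_nonneg_right (card_NZ_le hH) (by positivity)

theorem pstar_sup (hP : PStar) {ε : ℝ} (hε : 0 < ε) (A : ℕ) : ∃ C : ℝ, 0 ≤ C ∧
    ∀ K M : ℝ, 1 ≤ K → 1 ≤ M → ∀ c : O → ℂ, (∀ k, c k ≠ 0 → k ∈ SB K ∧ K / 2 < N k) →
    (∀ k, ‖c k‖ ≤ 1) → ∀ G : O → ℝ,
    (∀ e ∈ SB K, ∀ d f : O, Primary d → Primary f → d ∣ e → f ∣ d → ∀ H : ℝ, 1 ≤ H →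
      ∀ x : O → ℂ, (∀ k, x k ≠ 0 → Primary k ∧ Squarefree k) →
      (∀ k, ‖x k‖ ≤ ‖c (e * k)‖) →
      (M * N d / (K * N f)) * min 1 (((N f : ℝ) * K ^ 2 / ((N d : ℝ) ^ 2 * M * H)) ^ A) *
        Tq H (SB K) x ≤ G e) →
    ∑ b ∈ PB M, ‖∑ k ∈ SB K, c k * ch b k‖ ^ 2 ≤
      C * (K * M) ^ ε * (M * ∑ k ∈ SB K, ‖c k‖ ^ 2 + ∑ e ∈ SB K, G e) := by
  obtain ⟨C, hC, h⟩ := hP ε hε A
  refine ⟨C, hC, fun K M hK hM c hc hc1 G hG => ?_⟩
  let X : O → Type := fun e =>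
    {x : O → ℂ // (∀ k, x k ≠ 0 → Primary k ∧ Squarefree k) ∧ (∀ k, ‖x k‖ ≤ ‖c (e * k)‖)}
  let Φ : O → ℝ → ℝ := fun e H => ⨆ x : X e, Tq H (SB K) x.1
  have hne : ∀ e, Nonempty (X e) := fun e => ⟨⟨0, by simp, by simp⟩⟩
  refine h K M hK hM c hc Φ ?_ G ?_
  · intro e he H hH x hx1 hx2
    have hbdd : BddAbove (Set.range fun x : X e => Tq H (SB K) x.1) := by
      refine ⟨25 * H ^ 2 * ((SB K).card : ℝ) ^ 2, ?_⟩
      rintro _ ⟨y, rfl⟩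
      exact Tq_triv hH fun k => (y.2.2 k).trans (hc1 _)
    exact le_ciSup hbdd (⟨x, hx1, hx2⟩ : X e)
  · intro e he d f hd hf hde hfd H hH
    have h0 : 0 ≤ (M * N d / (K * N f)) *
        min 1 (((N f : ℝ) * K ^ 2 / ((N d : ℝ) ^ 2 * M * H)) ^ A) := by
      have : 0 < K := by linarith
      have : 0 < M := by linarith
      have : 0 < H := by linarith
      positivity
    rw [Real.mul_iSup_of_nonneg h0]
    have := hne e
    exact ciSup_le fun x => hG e he d f hd hf hde hfd H hH x.1 x.2.1 x.2.2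

theorem exists_exp {B v : ℝ} (hB : 1 < B) (hv : 1 ≤ v) : ∃ a : ℝ, 0 ≤ a ∧ v = B ^ a :=
  ⟨Real.logb B v, Real.logb_nonneg hB hv,
    (Real.rpow_logb (by linarith) (by linarith) (by linarith)).symm⟩

open Classical in
/-- the number of `k ∈ E` divisible by `e` -/
noncomputable def Rd (E : Finset O) (e : O) : ℝ := ((E.filter (e ∣ ·)).card : ℝ)

theorem Rd_nonneg (E : Finset O) (e : O) : 0 ≤ Rd E e := by unfold Rd; positivity

theorem Rd_le (E : Finset O) (e : O) : Rd E e ≤ E.card := by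
  unfold Rd; exact_mod_cast card_filter_le _ _

theorem sum_Rd_le {ε C : ℝ} (hC : ∀ c : O, Primary c → (tau c : ℝ) ≤ C * (N c : ℝ) ^ ε)
    (hC0 : 0 ≤ C) (hε : 0 < ε) {K : ℝ} (E : Finset O) (hE : E ⊆ SB K) :
    ∑ e ∈ SB K, Rd E e ≤ C * K ^ ε * E.card := by
  classical
  have h1 : ∑ e ∈ SB K, Rd E e = ∑ k ∈ E, (((SB K).filter (· ∣ k)).card : ℝ) := by
    unfold Rd
    simp only [card_filter]
    push_cast
    rw [sum_comm]
  rw [h1]
  calc ∑ k ∈ E, (((SB K).filter (· ∣ k)).card : ℝ) ≤ ∑ k ∈ E, C * K ^ ε := by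
        refine sum_le_sum fun k hk => ?_
        have hk' := mem_SB.1 (hE hk)
        have h2 : ((SB K).filter (· ∣ k)) ⊆ dvs k := by
          intro e he
          rw [mem_filter, mem_SB] at he
          rw [mem_dvs hk'.1.ne_zero]
          exact ⟨he.1.1, he.2⟩
        have h3 : (((SB K).filter (· ∣ k)).card : ℝ) ≤ tau k := by
          exact_mod_cast card_le_card h2
        refine h3.trans ((hC k hk'.1).trans ?_)
        refine mul_le_mul_of_nonneg_left ?_ hC0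
        exact Real.rpow_le_rpow (by positivity) hk'.2.2 hε.le
    _ = _ := by simp; ring

theorem sum_dtgt_le {θ d₂ ε B m q s : ℝ} (hB : 1 ≤ B) (E S : Finset O)
    (hs : ∑ e ∈ S, Rd E e ≤ s * E.card) :
    ∑ e ∈ S, dtgt θ d₂ ε B m q (Rd E e) ≤ s * dtgt θ d₂ ε B m q E.card := by
  have hP' : ∀ a : ℝ, 0 < B ^ a := fun a => rpos hB a
  have q1 := (hP' ε).le
  have q2 := (hP' (m / 2 + θ)).le
  have q3 := (hP' (2 / 3 * (m + q) - sav θ (d₂ / 2))).le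
  have q4 := (hP' (m / 3 + q)).le
  unfold dtgt
  set u := B ^ (m / 2 + θ)
  set v := B ^ (2 / 3 * (m + q) - sav θ (d₂ / 2)) + B ^ (m / 3 + q) with hv
  have hv0 : 0 ≤ v := add_nonneg q3 q4
  calc ∑ e ∈ S, B ^ ε * (u * Rd E e ^ 2 + v * Rd E e)
      ≤ ∑ e ∈ S, B ^ ε * ((u * E.card + v) * Rd E e) := by
        refine sum_le_sum fun e _ => mul_le_mul_of_nonneg_left ?_ q1
        have r1 := Rd_nonneg E e
        have r3 : Rd E e ^ 2 ≤ E.card * Rd E e := by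
          rw [sq]; exact mul_le_mul_of_nonneg_right (Rd_le E e) r1
        have := mul_le_mul_of_nonneg_left r3 q2
        linarith [show (u * E.card + v) * Rd E e = u * (E.card * Rd E e) + v * Rd E e by ring]
    _ = B ^ ε * ((u * E.card + v) * ∑ e ∈ S, Rd E e) := by rw [← mul_sum, ← mul_sum]
    _ ≤ B ^ ε * ((u * E.card + v) * (s * E.card)) := by gcongr
    _ = _ := by ring

theorem ext0_ne {E : Finset O} {c : O → ℂ} {l : O} (h : ext0 E c l ≠ 0) : l ∈ E := by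
  classical
  by_contra hne
  exact h (by simp [ext0, hne])

theorem norm_ext0_le {E : Finset O} {c : O → ℂ} (hc : ∀ k, ‖c k‖ ≤ 1) (l : O) :
    ‖ext0 E c l‖ ≤ 1 := by
  classical
  simp only [ext0]
  split_ifs
  · exact hc l
  · simp

/-- the part of `E` seen by `e` -/
noncomputable def Ee (E : Finset O) (e : O) (X : ℝ) : Finset O := by
  classical exact (SB X).filter (fun l => e * l ∈ E)

theorem Ee_subset {E : Finset O} {e : O} {X : ℝ} : Ee E e X ⊆ SB X := by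
  classical exact filter_subset _ _

theorem card_Ee_le {E : Finset O} {e : O} {X : ℝ} (he : e ≠ 0) :
    ((Ee E e X).card : ℝ) ≤ Rd E e := by
  classical
  unfold Rd
  have : (Ee E e X).card ≤ (E.filter (e ∣ ·)).card := by
    apply card_le_card_of_injOn (fun l => e * l)
    · intro l hl
      have hl' : l ∈ Ee E e X := hl
      rw [Ee, mem_filter] at hl'
      simp only [coe_filter, Set.mem_setOf_eq]
      exact ⟨hl'.2, dvd_mul_right e l⟩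
    · intro a _ b _ hab
      exact mul_left_cancel₀ he hab
  exact_mod_cast this

theorem Tq_eq_Ee {B k η H : ℝ} (hB : 1 ≤ B) {E : Finset O} (hE : E ⊆ SB (B ^ k)) {e : O}
    (hη0 : 0 ≤ η) (hη : (N e : ℝ) = B ^ η) {c x : O → ℂ}
    (hx1 : ∀ k, x k ≠ 0 → Primary k ∧ Squarefree k)
    (hx2 : ∀ k, ‖x k‖ ≤ ‖ext0 E c (e * k)‖) :
    Tq H (SB (B ^ k)) x = Tq H (Ee E e (B ^ (k - η))) x := by
  classical
  have hEe2 : Ee E e (B ^ (k - η)) ⊆ SB (B ^ k) :=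
    Ee_subset.trans (SB_mono (rle hB (by linarith)))
  unfold Tq
  refine sum_congr rfl fun z _ => ?_
  congr 2
  symm
  refine sum_subset hEe2 fun l hl hl' => ?_
  by_cases hxl : x l = 0
  · rw [hxl, zero_mul]
  · exfalso
    apply hl'
    have h5 : ext0 E c (e * l) ≠ 0 := by
      intro h6
      have h7 := hx2 l
      rw [h6, norm_zero] at h7
      exact hxl (norm_le_zero_iff.1 h7)
    have h6 : e * l ∈ E := ext0_ne h5
    rw [Ee, mem_filter]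
    refine ⟨?_, h6⟩
    rw [mem_SB]
    refine ⟨(hx1 l hxl).1, (hx1 l hxl).2, ?_⟩
    have h8 := (mem_SB.1 (hE h6)).2.2
    rw [N_mul] at h8
    push_cast at h8
    rw [hη] at h8
    have h9 : B ^ k = B ^ η * B ^ (k - η) := by rw [radd hB]; congr 1; ring
    rw [h9] at h8
    exact le_of_mul_le_mul_left h8 (rpos hB η)

theorem weight_step {θ d₂ ε C₁ C₂ : ℝ} (hθ : 0 < θ) (hd : 0 < d₂) (hε : 0 < ε) (hε1 : ε ≤ 1)
    (hC₁ : 0 ≤ C₁) (h₁ : ∀ B x h : ℝ, 1 ≤ B → 0 ≤ h → h + d₂ / 2 ≤ x → x ≤ 2 →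
      ∀ E : Finset O, E ⊆ SB (B ^ x) → ∀ γ : O → ℂ, (∀ r, ‖γ r‖ ≤ 1) →
      ∑ z ∈ NZ (B ^ h), ‖∑ r ∈ E, γ r * ch r z‖ ^ 2 ≤ C₁ * tgt θ (d₂ / 2) (ε / 4) B x h E.card)
    (hC₂ : 0 ≤ C₂) (h₂ : ∀ X H : ℝ, 1 ≤ X → 1 ≤ H → ∀ γ : O → ℂ,
      ∑ h ∈ NZ H, ‖∑ r ∈ SB X, γ r * ch r h‖ ^ 2 ≤
        C₂ * (H * X) ^ (ε / 40) * (H + H ^ (1 / 3 : ℝ) * X + (H * X) ^ (2 / 3 : ℝ)) *
          ∑ r ∈ SB X, ‖γ r‖ ^ 2)
    {A : ℕ} (hA : 2 + 40 / min (ε / 4) (d₂ / 4) ≤ A)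
    {B q m k : ℝ} (hB1 : 1 < B) (hq : q ≤ 2) (hm : m ≤ 3) (hqm : q + d₂ ≤ m) (hkq : k ≤ q)
    {E : Finset O} (hE : E ⊆ SB (B ^ k)) {c : O → ℂ} (hc : ∀ k, ‖c k‖ ≤ 1)
    {e d f : O} (he : e ∈ SB (B ^ k)) (hdp : Primary d) (hfp : Primary f) (hde : d ∣ e)
    (hfd : f ∣ d) {H : ℝ} (hH : 1 ≤ H) {x : O → ℂ}
    (hx1 : ∀ k, x k ≠ 0 → Primary k ∧ Squarefree k)
    (hx2 : ∀ k, ‖x k‖ ≤ ‖ext0 E c (e * k)‖) :
    (B ^ m * N d / (B ^ k * N f)) *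
        min 1 (((N f : ℝ) * (B ^ k) ^ 2 / ((N d : ℝ) ^ 2 * B ^ m * H)) ^ A) *
        Tq H (SB (B ^ k)) x ≤ (25 + C₁ + 2 * C₂) * dtgt θ d₂ ε B m q (Rd E e) := by
  have hB : 1 ≤ B := hB1.le
  have hP' : ∀ a : ℝ, 0 < B ^ a := fun a => rpos hB a
  have he' := mem_SB.1 he
  have hxn : ∀ l, ‖x l‖ ≤ 1 := fun l => (hx2 l).trans (norm_ext0_le hc _)
  -- exponents
  obtain ⟨η, hη0, hη⟩ := exists_exp hB1 he'.1.one_le_N'
  obtain ⟨δ, hδ0, hδ⟩ := exists_exp hB1 hdp.one_le_N'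
  obtain ⟨φ, hφ0, hφ⟩ := exists_exp hB1 hfp.one_le_N'
  obtain ⟨h, hh0, rfl⟩ := exists_exp hB1 hH
  have hηk : η ≤ k := (Real.rpow_le_rpow_left_iff hB1).1 (hη ▸ he'.2.2)
  have hδη : δ ≤ η := by
    rw [← Real.rpow_le_rpow_left_iff hB1, ← hη, ← hδ]
    exact_mod_cast Nat.le_of_dvd (N_pos he'.1.ne_zero) (N_dvd_N hde)
  have hφδ : φ ≤ δ := by
    rw [← Real.rpow_le_rpow_left_iff hB1, ← hφ, ← hδ]
    exact_mod_cast Nat.le_of_dvd (N_pos hdp.ne_zero) (N_dvd_N hfd)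
  rw [Tq_eq_Ee hB hE hη0 hη hx1 hx2]
  set F : Finset O := Ee E e (B ^ (k - η)) with hF
  have hF1 : F ⊆ SB (B ^ (k - η)) := Ee_subset
  have hcard : (F.card : ℝ) ≤ Rd E e := card_Ee_le he'.1.ne_zero
  have e1 : (B ^ m * (N d : ℝ) / (B ^ k * N f)) *
      min 1 (((N f : ℝ) * (B ^ k) ^ 2 / ((N d : ℝ) ^ 2 * B ^ m * B ^ h)) ^ A) =
      B ^ (m + δ - k - φ) * min 1 (B ^ (A * (φ + 2 * k - 2 * δ - m - h))) := by
    rw [hδ, hφ]
    congr 1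
    · rw [Real.rpow_sub (by linarith), Real.rpow_sub (by linarith),
        Real.rpow_add (by linarith), div_div]
    · congr 1
      rw [rpow_sq hB, rpow_sq hB, radd hB, radd hB, radd hB,
        ← Real.rpow_sub (by linarith), ← Real.rpow_natCast, rmul hB]
      congr 1; ring
  rw [e1]
  refine (weight_exp hθ hd hε hε1 hC₁ hC₂ hA hB hq hm hqm hφ0 hφδ hδη
      hηk hkq hh0 (show (0 : ℝ) ≤ F.card by positivity) Tq_nonneg ?_ ?_ ?_).trans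
    (mul_le_mul_of_nonneg_left (dtgt_mono hB (by positivity) hcard) (by positivity))
  · have := Tq_triv hH (S := F) hxn
    rwa [rpow_sq hB] at this
  · intro hx
    exact h₁ B (k - η) h hB hh0 hx (by linarith) F hF1 x hxn
  · have h5 := h₂ (B ^ (k - η)) (B ^ h) (rone hB (by linarith)) (rone hB hh0) (ext0 F x)
    have h6 : ∑ z ∈ NZ (B ^ h), ‖∑ r ∈ SB (B ^ (k - η)), ext0 F x r * ch r z‖ ^ 2 =
        Tq (B ^ h) F x := by
      unfold Tq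
      refine sum_congr rfl fun z _ => ?_
      rw [ext0_sum hF1 x (fun r => ch r z)]
    rw [h6] at h5
    refine h5.trans ?_
    have h7 : B ^ h * B ^ (k - η) = B ^ (h + (k - η)) := radd hB _ _
    have h8 : (B ^ h) ^ (1 / 3 : ℝ) * B ^ (k - η) = B ^ (h / 3 + (k - η)) := by
      rw [rmul hB, radd hB]; congr 1; ring
    rw [h7, h8, rmul hB, rmul hB,
      show (h + (k - η)) * (2 / 3 : ℝ) = 2 / 3 * (h + (k - η)) by ring]
    have := (hP' h).le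
    have := (hP' (h / 3 + (k - η))).le
    have := (hP' (2 / 3 * (h + (k - η)))).le
    have := (hP' ((h + (k - η)) * (ε / 40))).le
    refine mul_le_mul_of_nonneg_left (ext0_norm hF1 hxn) (by positivity)

theorem combine2 {C₃ C a b x y : ℝ} (hC₃ : 0 ≤ C₃) (hC : 0 ≤ C) (hx : 0 ≤ x) (hy : 0 ≤ y)
    (ha : a ≤ x) (hb : b ≤ y) : C₃ * (a + C * b) ≤ C₃ * (1 + C) * (x + y) := by
  have h1 : a + C * b ≤ (1 + C) * (x + y) := by
    have := mul_nonneg hC hx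
    have := mul_le_mul_of_nonneg_left hb hC
    linarith [show (1 + C) * (x + y) = x + y + C * x + C * y by ring]
  calc C₃ * (a + C * b) ≤ C₃ * ((1 + C) * (x + y)) := mul_le_mul_of_nonneg_left h1 hC₃
    _ = _ := by ring

theorem dual_dyadic (hP : PStar) (hBf : Bfull) (hHB : HBsq) (hCLS : CLSq) {θ d₂ ε : ℝ}
    (hθ : 0 < θ) (hd : 0 < d₂) (hε : 0 < ε) (hε1 : ε ≤ 1) : ∃ C : ℝ, 0 ≤ C ∧
    ∀ B q m : ℝ, 1 < B → q ≤ 2 → m ≤ 3 → q + d₂ ≤ m → ∀ K : ℝ, 1 ≤ K → K ≤ B ^ q →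
    ∀ E : Finset O, E ⊆ SB K → (∀ k ∈ E, K / 2 < N k) → ∀ c : O → ℂ, (∀ k, ‖c k‖ ≤ 1) →
    ∑ b ∈ PB (B ^ m), ‖∑ k ∈ E, c k * ch b k‖ ^ 2 ≤
      C * (B ^ ε * (B ^ m * E.card) + dtgt θ d₂ ε B m q E.card) := by
  classical
  obtain ⟨C₁, hC₁, h₁⟩ := T_refined hHB hCLS (θ := θ) (d := d₂ / 2) (ε := ε / 4 / 4) hθ
    (by positivity) (by positivity)
  obtain ⟨C₂, hC₂, h₂⟩ := hBf (ε / 4 / 40) (by positivity)
  obtain ⟨A, hA⟩ := exists_nat_ge (2 + 40 / min (ε / 4 / 4) (d₂ / 4))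
  obtain ⟨C₃, hC₃, h₃⟩ := pstar_sup hP (ε := ε / 20) (by positivity) A
  obtain ⟨C₄, hC₄, h₄⟩ := exists_tau_le (ε := ε / 8) (by positivity)
  set C₀ : ℝ := 25 + C₁ + 2 * C₂ with hC₀
  have hC₀0 : 0 ≤ C₀ := by positivity
  refine ⟨C₃ * (1 + C₀ * C₄), by positivity, ?_⟩
  intro B q m hB1 hq hm hqm K hK hKq E hE hE2 c hc
  have hB : 1 ≤ B := hB1.le
  have hP' : ∀ a : ℝ, 0 < B ^ a := fun a => rpos hB a
  have hq0 : 0 ≤ q := by
    by_contra hneg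
    push Not at hneg
    have := Real.rpow_lt_one_of_one_lt_of_neg hB1 hneg
    linarith
  have hM : (1 : ℝ) ≤ B ^ m := rone hB (by linarith)
  obtain ⟨k, hk0, rfl⟩ := exists_exp hB1 hK
  have hkq : k ≤ q := (Real.rpow_le_rpow_left_iff hB1).1 hKq
  have key := h₃ (B ^ k) (B ^ m) hK hM (ext0 E c)
    (fun l hl => ⟨hE (ext0_ne hl), hE2 l (ext0_ne hl)⟩) (norm_ext0_le hc)
    (fun e => C₀ * dtgt θ d₂ (ε / 4) B m q (Rd E e))
    (fun e he d f hdp hfp hde hfd H hH x hx1 hx2 =>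
      weight_step hθ hd (by positivity) (by linarith) hC₁ h₁ hC₂ h₂ hA hB1 hq hm hqm hkq hE hc
        he hdp hfp hde hfd hH hx1 hx2)
  have e1 : ∀ b, ∑ k ∈ SB (B ^ k), ext0 E c k * ch b k = ∑ k ∈ E, c k * ch b k := fun b =>
    ext0_sum hE c (ch b)
  simp only [e1] at key
  refine key.trans ?_
  have hn0 : (0 : ℝ) ≤ E.card := by positivity
  have t1 : ∑ k ∈ SB (B ^ k), ‖ext0 E c k‖ ^ 2 ≤ E.card := ext0_norm hE hc
  have t2 : (B ^ k * B ^ m) ^ (ε / 20) ≤ B ^ (ε / 4) := by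
    rw [radd hB, rmul hB]
    apply rle hB
    have : (k + m) * (ε / 20) ≤ 5 * (ε / 20) :=
      mul_le_mul_of_nonneg_right (by linarith) (by positivity)
    linarith
  have t3 : ∑ e ∈ SB (B ^ k), Rd E e ≤ (C₄ * B ^ (ε / 4)) * E.card := by
    refine (sum_Rd_le h₄ (by linarith) (by positivity) E hE).trans ?_
    have h5 : (B ^ k) ^ (ε / 8) ≤ B ^ (ε / 4) := by
      rw [rmul hB]; apply rle hB
      have := mul_le_mul_of_nonneg_right (show k ≤ 2 by linarith) (show 0 ≤ ε / 8 by positivity)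
      linarith
    exact mul_le_mul_of_nonneg_right (mul_le_mul_of_nonneg_left h5 (by linarith)) hn0
  have t4 := sum_dtgt_le (θ := θ) (d₂ := d₂) (ε := ε / 4) (m := m) (q := q) hB E (SB (B ^ k)) t3
  have t5 : ∑ e ∈ SB (B ^ k), C₀ * dtgt θ d₂ (ε / 4) B m q (Rd E e) ≤
      (C₀ * C₄) * dtgt θ d₂ (ε / 4 + ε / 4) B m q E.card := by
    rw [← mul_sum, ← dtgt_mul hB]
    calc C₀ * ∑ e ∈ SB (B ^ k), dtgt θ d₂ (ε / 4) B m q (Rd E e)
        ≤ C₀ * (C₄ * B ^ (ε / 4) * dtgt θ d₂ (ε / 4) B m q E.card) :=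
          mul_le_mul_of_nonneg_left t4 hC₀0
      _ = _ := by ring
  have hD0 := dtgt_nonneg (θ := θ) (d₂ := d₂) (ε := ε / 4 + ε / 4) (m := m) (q := q) hB hn0
  have t6 : 0 ≤ B ^ m * (E.card : ℝ) + C₀ * C₄ * dtgt θ d₂ (ε / 4 + ε / 4) B m q E.card := by
    have := (hP' m).le
    positivity
  calc C₃ * (B ^ k * B ^ m) ^ (ε / 20) * (B ^ m * ∑ k ∈ SB (B ^ k), ‖ext0 E c k‖ ^ 2 +
        ∑ e ∈ SB (B ^ k), C₀ * dtgt θ d₂ (ε / 4) B m q (Rd E e))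
      ≤ C₃ * (B ^ k * B ^ m) ^ (ε / 20) * (B ^ m * E.card +
          (C₀ * C₄) * dtgt θ d₂ (ε / 4 + ε / 4) B m q E.card) := by
        refine mul_le_mul_of_nonneg_left (add_le_add ?_ t5) ?_
        · exact mul_le_mul_of_nonneg_left t1 (hP' m).le
        · have := (hP' k).le
          have := (hP' m).le
          positivity
    _ ≤ C₃ * B ^ (ε / 4) * (B ^ m * E.card +
          (C₀ * C₄) * dtgt θ d₂ (ε / 4 + ε / 4) B m q E.card) :=
        mul_le_mul_of_nonneg_right (mul_le_mul_of_nonneg_left t2 hC₃) t6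
    _ = C₃ * (B ^ (ε / 4) * (B ^ m * E.card) +
          (C₀ * C₄) * dtgt θ d₂ (ε / 4 + (ε / 4 + ε / 4)) B m q E.card) := by
        rw [← dtgt_mul hB (ε := ε / 4 + ε / 4)]; ring
    _ ≤ _ := by
        have hm0 := (hP' m).le
        have he0 := (hP' ε).le
        refine combine2 hC₃ (by positivity) (by positivity) (dtgt_nonneg hB hn0) ?_ ?_
        · exact mul_le_mul_of_nonneg_right (rle hB (by linarith)) (by positivity)
        · exact dtgt_mono_eps hB hn0 (by linarith)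

end Vale.Agent.P006.LV
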