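import Vale.Agent.P006.LV.Dual
import Mathlib.Algebra.Order.Chebyshev

/-!
P006, block LV: the dual bound for arbitrary sets.
-/

namespace Vale.Agent.P006.LV

open Finset

theorem norm_sum_sq_le_card {ι : Type*} (s : Finset ι) (z : ι → ℂ) :
    ‖∑ i ∈ s, z i‖ ^ 2 ≤ s.card * ∑ i ∈ s, ‖z i‖ ^ 2 := by
  calc ‖∑ i ∈ s, z i‖ ^ 2 ≤ (∑ i ∈ s, ‖z i‖) ^ 2 := by gcongr; exact norm_sum_le _ _
    _ ≤ _ := sq_sum_le_card_mul_sum_sq

theorem log_floor {v : ℝ} (hv : 1 ≤ v) :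
    (2 : ℝ) ^ (Nat.log 2 ⌊v⌋₊) ≤ v ∧ v < 2 ^ (Nat.log 2 ⌊v⌋₊ + 1) := by
  have h0 : ⌊v⌋₊ ≠ 0 := by
    have : 1 ≤ ⌊v⌋₊ := Nat.le_floor (by simpa using hv)
    omega
  constructor
  · have h1 := Nat.pow_log_le_self 2 h0
    have h2 : ((2 ^ (Nat.log 2 ⌊v⌋₊) : ℕ) : ℝ) ≤ (⌊v⌋₊ : ℝ) := by exact_mod_cast h1
    push_cast at h2
    exact h2.trans (Nat.floor_le (by linarith))
  · have h1 := Nat.lt_pow_succ_log_self (b := 2) (by norm_num) ⌊v⌋₊
    have h2 : ((⌊v⌋₊ + 1 : ℕ) : ℝ) ≤ ((2 ^ (Nat.log 2 ⌊v⌋₊).succ : ℕ) : ℝ) := by exact_mod_cast h1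
    push_cast at h2
    exact (Nat.lt_floor_add_one v).trans_le h2

theorem dual_bound (hP : PStar) (hBf : Bfull) (hHB : HBsq) (hCLS : CLSq) {θ d₂ ε : ℝ}
    (hθ : 0 < θ) (hd : 0 < d₂) (hε : 0 < ε) (hε1 : ε ≤ 1) : ∃ C : ℝ, 0 ≤ C ∧
    ∀ B q m : ℝ, 1 < B → 0 ≤ q → q ≤ 2 → m ≤ 3 → q + d₂ ≤ m →
    ∀ E : Finset O, E ⊆ SB (B ^ q) → ∀ c : O → ℂ, (∀ k, ‖c k‖ ≤ 1) →
    ∑ b ∈ PB (B ^ m), ‖∑ k ∈ E, c k * ch b k‖ ^ 2 ≤
      C * (B ^ ε * (B ^ m * E.card) + dtgt θ d₂ ε B m q E.card) := by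
  classical
  obtain ⟨C₁, hC₁, h₁⟩ := dual_dyadic hP hBf hHB hCLS hθ hd (show 0 < ε / 2 by positivity)
    (by linarith)
  obtain ⟨C₂, hC₂, h₂⟩ := exists_log_bound (ε := ε / 4) (by positivity) 2 (by norm_num)
  refine ⟨4 * C₂ ^ 2 * C₁, by positivity, ?_⟩
  intro B q m hB1 hq0 hq hm hqm E hE c hc
  have hB : 1 ≤ B := hB1.le
  have hP' : ∀ a : ℝ, 0 < B ^ a := fun a => rpos hB a
  have hJ0 : 0 ≤ C₂ * B ^ (ε / 4) := mul_nonneg (by linarith) (hP' _).le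
  set J : ℕ := ⌊C₂ * B ^ (ε / 4)⌋₊ with hJ
  have hJle : ((J : ℝ) + 1) ≤ 2 * C₂ * B ^ (ε / 4) := by
    have h3 : (J : ℝ) ≤ C₂ * B ^ (ε / 4) := Nat.floor_le hJ0
    have h4 : 1 ≤ B ^ (ε / 4) := rone hB (by positivity)
    nlinarith
  set g : O → ℕ := fun k => Nat.log 2 ⌊B ^ q / N k⌋₊ with hg
  have hNk : ∀ k ∈ E, (1 : ℝ) ≤ N k ∧ (N k : ℝ) ≤ B ^ q := fun k hk =>
    ⟨(mem_SB.1 (hE hk)).1.one_le_N', (mem_SB.1 (hE hk)).2.2⟩
  have hg2 : ∀ k ∈ E, (2 : ℝ) ^ (g k) ≤ B ^ q / N k ∧ B ^ q / N k < 2 ^ (g k + 1) := by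
    intro k hk
    have := hNk k hk
    exact log_floor (by rw [le_div_iff₀ (by linarith)]; linarith)
  have hgJ : ∀ k ∈ E, g k ∈ range (J + 1) := by
    intro k hk
    have h3 := hNk k hk
    have h4 := (hg2 k hk).1
    have h5 : B ^ q / N k ≤ B ^ (2 : ℝ) :=
      (div_le_self (hP' q).le h3.1).trans (rle hB hq)
    have h6 := h₂ B hB (g k) (h4.trans h5)
    rw [mem_range, Nat.lt_succ_iff]
    apply Nat.le_floor
    linarith
  set D : ℝ := B ^ (ε / 2) * (B ^ m * E.card) + dtgt θ d₂ (ε / 2) B m q E.card with hD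
  have hD0 : 0 ≤ D := by
    have := (hP' (ε / 2)).le
    have := (hP' m).le
    have := dtgt_nonneg (θ := θ) (d₂ := d₂) (ε := ε / 2) (m := m) (q := q) hB
      (show (0 : ℝ) ≤ E.card by positivity)
    positivity
  have key : ∀ i ∈ range (J + 1),
      ∑ b ∈ PB (B ^ m), ‖∑ k ∈ E with g k = i, c k * ch b k‖ ^ 2 ≤ C₁ * D := by
    intro i _
    rcases (E.filter (g · = i)).eq_empty_or_nonempty with hemp | ⟨k₀, hk₀⟩
    · rw [hemp]; simp; positivity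
    · have hk₀' := mem_filter.1 hk₀
      have hK : ∀ k ∈ E.filter (g · = i), (N k : ℝ) ≤ B ^ q / 2 ^ i ∧
          B ^ q / 2 ^ i / 2 < N k := by
        intro k hk
        have hk' := mem_filter.1 hk
        have h3 := hNk k hk'.1
        have h4 := hg2 k hk'.1
        rw [hk'.2, le_div_iff₀ (by linarith), div_lt_iff₀ (by linarith)] at h4
        constructor
        · rw [le_div_iff₀ (by positivity)]; linarith
        · rw [div_div, div_lt_iff₀ (by positivity), ← pow_succ]; linarith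
      have h3 := h₁ B q m hB1 hq hm hqm (B ^ q / 2 ^ i)
        ((hNk k₀ hk₀'.1).1.trans (hK k₀ hk₀).1)
        (div_le_self (hP' q).le (one_le_pow₀ (by norm_num))) (E.filter (g · = i))
        (fun k hk => by
          have := mem_SB.1 (hE (mem_filter.1 hk).1)
          exact mem_SB.2 ⟨this.1, this.2.1, (hK k hk).1⟩)
        (fun k hk => (hK k hk).2) c hc
      refine h3.trans (mul_le_mul_of_nonneg_left ?_ hC₁)
      have hcard : ((E.filter (g · = i)).card : ℝ) ≤ E.card := by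
        exact_mod_cast card_filter_le _ _
      rw [hD]
      have := (hP' (ε / 2)).le
      have := (hP' m).le
      have := dtgt_mono (θ := θ) (d₂ := d₂) (ε := ε / 2) (m := m) (q := q) hB
        (show (0 : ℝ) ≤ (E.filter (g · = i)).card by positivity) hcard
      gcongr
  calc ∑ b ∈ PB (B ^ m), ‖∑ k ∈ E, c k * ch b k‖ ^ 2
      = ∑ b ∈ PB (B ^ m), ‖∑ i ∈ range (J + 1), ∑ k ∈ E with g k = i, c k * ch b k‖ ^ 2 := by
        refine sum_congr rfl fun b _ => ?_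
        rw [sum_fiberwise_of_maps_to hgJ]
    _ ≤ ∑ b ∈ PB (B ^ m), (J + 1 : ℝ) *
          ∑ i ∈ range (J + 1), ‖∑ k ∈ E with g k = i, c k * ch b k‖ ^ 2 := by
        refine sum_le_sum fun b _ => ?_
        have := norm_sum_sq_le_card (range (J + 1)) (fun i => ∑ k ∈ E with g k = i, c k * ch b k)
        rw [card_range] at this
        exact_mod_cast this
    _ = (J + 1 : ℝ) * ∑ i ∈ range (J + 1),
          ∑ b ∈ PB (B ^ m), ‖∑ k ∈ E with g k = i, c k * ch b k‖ ^ 2 := by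
        rw [← mul_sum, sum_comm]
    _ ≤ (J + 1 : ℝ) * ∑ i ∈ range (J + 1), C₁ * D :=
        mul_le_mul_of_nonneg_left (sum_le_sum key) (by positivity)
    _ = (J + 1 : ℝ) * ((J + 1 : ℝ) * (C₁ * D)) := by
        rw [sum_const, card_range, nsmul_eq_mul]; push_cast; ring
    _ ≤ (2 * C₂ * B ^ (ε / 4)) * ((2 * C₂ * B ^ (ε / 4)) * (C₁ * D)) := by
        have : 0 ≤ C₁ * D := mul_nonneg hC₁ hD0
        gcongr
    _ = 4 * C₂ ^ 2 * C₁ * ((B ^ (ε / 4) * B ^ (ε / 4)) * D) := by ring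
    _ = 4 * C₂ ^ 2 * C₁ * (B ^ ε * (B ^ m * E.card) + dtgt θ d₂ ε B m q E.card) := by
        rw [hD, radd hB, mul_add, dtgt_mul hB, ← mul_assoc (B ^ (ε / 4 + ε / 4)), radd hB]
        congr 3
        · congr 1
          congr 1
          ring
        · ring

end Vale.Agent.P006.LV
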