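import Vale.Agent.P006.PS.PStar
import Vale.Agent.P006.H357.Dual
import Vale.Agent.P006.CLS.Recip
import Vale.Agent.P006.LV.Defs

/-!
P006, block LV: the inputs `PStar`, `HBsq`, `Bfull`, `CLSq`, `LS4` hold.
-/

namespace Vale.Agent.P006.LV

open Finset

theorem SF_eq (X : ℝ) : HB.SF X = SB X := by
  ext z
  rw [HB.mem_SF, mem_SB]
  constructor
  · rintro ⟨h1, h2, h3⟩; exact ⟨h2, h3, h1⟩
  · rintro ⟨h1, h2, h3⟩; exact ⟨h3, h1, h2⟩

theorem Hn_eq (X : ℝ) : HB.Hn X = NZ X := by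
  ext z
  rw [HB.mem_Hn, mem_NZ]
  exact and_comm

theorem symC_eq (k n : O) : HB.symC k n = ch k n := rfl

theorem ch_comm {b k : O} (hb : Primary b) (hk : Primary k) : ch b k = ch k b := by
  rw [ch, ch, recip hk hb]

theorem PB_subset_NZ (X : ℝ) : PB X ⊆ NZ X := fun c hc => by
  rw [mem_PB] at hc; rw [mem_NZ]; exact ⟨hc.1.ne_zero, hc.2⟩

theorem pstar : PStar := by
  intro ε hε A
  obtain ⟨C, hC, h⟩ := PS.pstar_full ε hε A
  refine ⟨C, hC.le, ?_⟩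
  intro K M hK hM c hc Φ hΦ G hG
  have key := h K M hK hM c (fun k hk => by rw [SF_eq]; exact hc k hk) Φ
    (fun e he H hH x hx1 hx2 => by
      rw [Hn_eq, SF_eq]
      exact hΦ e (by rw [← SF_eq]; exact he) H hH x hx1 hx2) G
    (fun e he d hd f hf H hH => by
      have he' := HB.mem_SF.1 he
      have hd' := (HB.mem_D (HB.Prim.ne_zero he'.2.1)).1 hd
      have hf' := (HB.mem_D (HB.Prim.ne_zero hd'.1)).1 hf
      exact hG e (by rw [← SF_eq]; exact he) d f hd'.1 hf'.1 hd'.2 hf'.2 H hH)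
  rw [SF_eq, Hn_eq] at key
  refine le_trans ?_ key
  calc ∑ b ∈ PB M, ‖∑ k ∈ SB K, c k * ch b k‖ ^ 2
      = ∑ b ∈ PB M, ‖∑ k ∈ SB K, c k * HB.symC k b‖ ^ 2 := by
        refine sum_congr rfl fun b hb => ?_
        congr 2
        refine sum_congr rfl fun k hk => ?_
        rw [symC_eq, ch_comm (mem_PB.1 hb).1 (mem_SB.1 hk).1]
    _ ≤ ∑ b ∈ NZ M, ‖∑ k ∈ SB K, c k * HB.symC k b‖ ^ 2 :=
        sum_le_sum_of_subset_of_nonneg (PB_subset_NZ M) fun _ _ _ => by positivity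

theorem hbsq : HBsq := by
  intro ε hε
  obtain ⟨C, hC, h⟩ := PS.cubic_large_sieve_symC ε hε
  refine ⟨C, hC.le, fun R K hR hK γ => ?_⟩
  have h1 := h R K hR hK γ
  rw [SF_eq, SF_eq] at h1
  exact h1

theorem bfull : Bfull := by
  intro ε hε
  obtain ⟨C, hC, h⟩ := PS.cubic_large_sieve_full_symC ε hε
  refine ⟨C, hC.le, fun X H hX hH γ => ?_⟩
  have h1 := h X H hX hH γ
  rw [SF_eq, Hn_eq] at h1
  rw [mul_comm H X, mul_comm (H ^ (1 / 3 : ℝ)) X]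
  exact h1

theorem clsq : CLSq := by
  classical
  refine ⟨CLS.cLS2, CLS.cLS2_nonneg, ?_⟩
  intro R Q₁ Q₂ hR h1 h2 γ
  have h := CLS.large_sieve_box h1 h2 hR (SB Q₁) (SB Q₂) (fun k hk => mem_SB.1 hk)
    (fun k hk => mem_SB.1 hk) (SB R) (fun n hn => ⟨(mem_SB.1 hn).1, (mem_SB.1 hn).2.2⟩) γ
  refine le_trans (le_of_eq ?_) h
  rw [sum_filter, sum_product]
  refine sum_congr rfl fun k₁ _ => ?_
  rw [sum_filter]
  rfl

/-- (LS4) -/
theorem ls4 {ε : ℝ} (hε : 0 < ε) : ∃ C : ℝ, 0 ≤ C ∧ ∀ K M : ℝ, 1 ≤ K → 1 ≤ M → ∀ a : O → ℂ,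
    (∀ b, ‖a b‖ ≤ 1) → ∑ k ∈ SB K, ‖∑ b ∈ PB M, a b * ch b k‖ ^ 2 ≤
      C * (K * M) ^ ε * (M * (K + M + (K * M) ^ (2 / 3 : ℝ))) := by
  classical
  obtain ⟨C, hC, h⟩ := HB.large_sieve_dual HB.csym_symC PS.pstar_symC ε hε
  refine ⟨C, hC.le, fun K M hK hM a ha => ?_⟩
  have h1 := h K M hK hM (fun b => if b ∈ PB M then a b else 0) (fun b => by
    split_ifs
    · exact ha b
    · simp)
  rw [SF_eq, Hn_eq] at h1
  refine le_trans (le_of_eq ?_) h1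
  refine sum_congr rfl fun k hk => ?_
  congr 2
  have e1 : ∑ h ∈ NZ M, (if h ∈ PB M then a h else 0) * HB.symC k h =
      ∑ h ∈ PB M, (if h ∈ PB M then a h else 0) * HB.symC k h := by
    symm
    refine sum_subset (PB_subset_NZ M) fun b _ hb => ?_
    rw [if_neg hb, zero_mul]
  rw [e1]
  refine sum_congr rfl fun b hb => ?_
  rw [if_pos hb, symC_eq, ch_comm (mem_PB.1 hb).1 (mem_SB.1 hk).1]

end Vale.Agent.P006.LV
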