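import Vale.Agent.P006.LV.Cell

/-!
P006, block LV: powers of Dirichlet polynomials, Halász–Montgomery.
-/

namespace Vale.Agent.P006.LV

open Finset

theorem ch_one_left (k : O) : ch 1 k = 1 := by
  rw [ch, sym_unit k isUnit_one, map_one]

theorem pow_repr {X : ℝ} (hX : 1 ≤ X) {a : O → ℂ} (ha : ∀ n, ‖a n‖ ≤ 1) (j : ℕ) :
    ∃ γ : O → ℂ, (∀ b, Primary b → ‖γ b‖ ≤ (tau b : ℝ) ^ j) ∧
      ∀ k, (∑ n ∈ PB X, a n * ch n k) ^ j = ∑ b ∈ PB (X ^ j), γ b * ch b k := by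
  classical
  induction j with
  | zero =>
    refine ⟨fun b => if b = 1 then 1 else 0, ?_, ?_⟩
    · intro b _
      simp only
      split_ifs <;> simp
    · intro k
      rw [pow_zero, pow_zero, sum_eq_single 1]
      · simp [ch_one_left]
      · intro b _ hb; simp [hb]
      · intro h; exact absurd (one_mem_PB le_rfl) h
  | succ j ih =>
    obtain ⟨γ, hγ, h⟩ := ih
    set T : Finset (O × O) := PB (X ^ j) ×ˢ PB X with hT
    have hX0 : 0 ≤ X := by linarith
    refine ⟨fun b => ∑ p ∈ T with p.1 * p.2 = b, γ p.1 * a p.2, ?_, ?_⟩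
    · intro b hb
      have h1 : ∀ p ∈ T.filter (fun p => p.1 * p.2 = b), ‖γ p.1 * a p.2‖ ≤ (tau b : ℝ) ^ j := by
        intro p hp
        rw [mem_filter, hT, mem_product, mem_PB, mem_PB] at hp
        rw [norm_mul]
        have h2 := hγ p.1 hp.1.1.1
        have h3 : (tau p.1 : ℝ) ≤ tau b := by
          exact_mod_cast tau_le_of_dvd hb.ne_zero ⟨p.2, hp.2.symm⟩
        calc ‖γ p.1‖ * ‖a p.2‖ ≤ (tau p.1 : ℝ) ^ j * 1 :=
              mul_le_mul h2 (ha _) (norm_nonneg _) (by positivity)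
          _ ≤ (tau b : ℝ) ^ j := by
              rw [mul_one]; exact pow_le_pow_left₀ (by positivity) h3 j
      have h2 : (T.filter (fun p => p.1 * p.2 = b)).card ≤ tau b := by
        apply card_le_card_of_injOn (fun p => p.2)
        · intro p hp
          have hp' : p ∈ T.filter (fun p => p.1 * p.2 = b) := hp
          rw [mem_filter, hT, mem_product, mem_PB, mem_PB] at hp'
          exact (mem_dvs hb.ne_zero).2 ⟨hp'.1.2.1, ⟨p.1, by rw [mul_comm]; exact hp'.2.symm⟩⟩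
        · intro p hp p' hp' hpp
          have h3 : p ∈ T.filter (fun p => p.1 * p.2 = b) := hp
          have h4 : p' ∈ T.filter (fun p => p.1 * p.2 = b) := hp'
          rw [mem_filter, hT, mem_product, mem_PB, mem_PB] at h3 h4
          have h5 : p.2 = p'.2 := hpp
          refine Prod.ext ?_ h5
          have h6 : p.1 * p.2 = p'.1 * p.2 := by rw [h3.2, h5, h4.2]
          exact mul_right_cancel₀ h3.1.2.1.ne_zero h6
      calc ‖∑ p ∈ T with p.1 * p.2 = b, γ p.1 * a p.2‖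
          ≤ ∑ p ∈ T with p.1 * p.2 = b, (tau b : ℝ) ^ j :=
            (norm_sum_le _ _).trans (sum_le_sum h1)
        _ = ((T.filter (fun p => p.1 * p.2 = b)).card : ℝ) * (tau b : ℝ) ^ j := by simp
        _ ≤ (tau b : ℝ) * (tau b : ℝ) ^ j := by
            have : ((T.filter (fun p => p.1 * p.2 = b)).card : ℝ) ≤ tau b := by exact_mod_cast h2
            gcongr
        _ = _ := by ring
    · intro k
      rw [pow_succ, h k, sum_mul_sum, ← sum_product']
      have hmaps : ∀ p ∈ T, p.1 * p.2 ∈ PB (X ^ (j + 1)) := by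
        intro p hp
        rw [hT, mem_product, mem_PB, mem_PB] at hp
        rw [mem_PB, N_mul, pow_succ]
        push_cast
        exact ⟨hp.1.1.mul hp.2.1, mul_le_mul hp.1.2 hp.2.2 (by positivity) (by positivity)⟩
      rw [← sum_fiberwise_of_maps_to hmaps]
      refine sum_congr rfl fun b _ => ?_
      rw [sum_mul]
      refine sum_congr rfl fun p hp => ?_
      rw [mem_filter, hT, mem_product, mem_PB, mem_PB] at hp
      rw [← hp.2, mul_ch hp.1.1.1.ne_zero hp.1.2.1.ne_zero]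
      ring

theorem hm {P E : Finset O} {γ : O → ℂ} {V D : ℝ} (hV : 0 ≤ V)
    (hE : ∀ k ∈ E, V ≤ ‖∑ b ∈ P, γ b * ch b k‖)
    (hD : ∀ c : O → ℂ, (∀ k, ‖c k‖ ≤ 1) → ∑ b ∈ P, ‖∑ k ∈ E, c k * ch b k‖ ^ 2 ≤ D) :
    (V * E.card) ^ 2 ≤ (∑ b ∈ P, ‖γ b‖ ^ 2) * D := by
  set F : O → ℂ := fun k => ∑ b ∈ P, γ b * ch b k with hF
  set c : O → ℂ := fun k => (starRingEnd ℂ) (F k) / (‖F k‖ : ℂ) with hc
  have hc1 : ∀ k, ‖c k‖ ≤ 1 := by
    intro k
    rw [hc]
    simp only [norm_div, Complex.norm_conj, Complex.norm_real, norm_norm]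
    exact div_self_le_one _
  have hc2 : ∀ k, c k * F k = (‖F k‖ : ℂ) := by
    intro k
    by_cases h0 : F k = 0
    · simp [h0]
    · have h1 : (‖F k‖ : ℂ) ≠ 0 := by
        exact_mod_cast norm_ne_zero_iff.2 h0
      rw [hc]
      simp only
      rw [div_mul_eq_mul_div, mul_comm, Complex.mul_conj', sq, mul_div_assoc, div_self h1,
        mul_one]
  have h1 : V * E.card ≤ ∑ k ∈ E, ‖F k‖ := by
    calc V * E.card = ∑ k ∈ E, V := by simp [mul_comm]
      _ ≤ _ := sum_le_sum hE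
  have h2 : ∑ k ∈ E, ‖F k‖ = ‖∑ b ∈ P, γ b * ∑ k ∈ E, c k * ch b k‖ := by
    have h3 : ((∑ k ∈ E, ‖F k‖ : ℝ) : ℂ) = ∑ b ∈ P, γ b * ∑ k ∈ E, c k * ch b k := by
      push_cast
      calc ∑ k ∈ E, (‖F k‖ : ℂ) = ∑ k ∈ E, c k * F k := sum_congr rfl fun k _ => (hc2 k).symm
        _ = ∑ k ∈ E, ∑ b ∈ P, c k * (γ b * ch b k) := by
            refine sum_congr rfl fun k _ => ?_
            rw [hF]; simp only; rw [mul_sum]
        _ = ∑ b ∈ P, ∑ k ∈ E, c k * (γ b * ch b k) := sum_comm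
        _ = _ := by
            refine sum_congr rfl fun b _ => ?_
            rw [mul_sum]
            exact sum_congr rfl fun k _ => by ring
    rw [← h3, Complex.norm_real, Real.norm_of_nonneg (by positivity)]
  calc (V * E.card) ^ 2 ≤ ‖∑ b ∈ P, γ b * ∑ k ∈ E, c k * ch b k‖ ^ 2 := by
        rw [← h2]; exact pow_le_pow_left₀ (by positivity) h1 2
    _ ≤ (∑ b ∈ P, ‖γ b‖ * ‖∑ k ∈ E, c k * ch b k‖) ^ 2 := by
        refine pow_le_pow_left₀ (norm_nonneg _) ?_ 2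
        exact (norm_sum_le _ _).trans (le_of_eq (sum_congr rfl fun b _ => norm_mul _ _))
    _ ≤ (∑ b ∈ P, ‖γ b‖ ^ 2) * ∑ b ∈ P, ‖∑ k ∈ E, c k * ch b k‖ ^ 2 :=
        sum_mul_sq_le_sq_mul_sq _ _ _
    _ ≤ _ := mul_le_mul_of_nonneg_left (hD c hc1) (by positivity)

/-- divisor bound for powers -/
theorem tau_pow_bound {ε : ℝ} (hε : 0 < ε) (J : ℕ) : ∃ C : ℝ, 1 ≤ C ∧
    ∀ B m : ℝ, 1 ≤ B → 0 ≤ m → m ≤ 2 → ∀ j ≤ J, ∀ b ∈ PB (B ^ m),
      (tau b : ℝ) ^ j ≤ C * B ^ ε := by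
  obtain ⟨C, hC, h⟩ := exists_tau_le (ε := ε / (2 * (J + 1))) (by positivity)
  refine ⟨C ^ J, one_le_pow₀ hC, ?_⟩
  intro B m hB hm hm2 j hj b hb
  rw [mem_PB] at hb
  have h1 := h b hb.1
  have h2 : (tau b : ℝ) ≤ C * B ^ (ε / (J + 1)) := by
    refine h1.trans ?_
    have h3 : (N b : ℝ) ^ (ε / (2 * (J + 1))) ≤ B ^ (ε / (J + 1)) := by
      calc (N b : ℝ) ^ (ε / (2 * (J + 1))) ≤ (B ^ m) ^ (ε / (2 * (J + 1))) :=
            Real.rpow_le_rpow (by positivity) hb.2 (by positivity)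
        _ ≤ B ^ (ε / (J + 1)) := by
            rw [rmul hB]; apply rle hB
            have h4 : ε / (J + 1 : ℝ) = 2 * (ε / (2 * (J + 1))) := by field_simp
            rw [h4]
            exact mul_le_mul_of_nonneg_right hm2 (by positivity)
    exact mul_le_mul_of_nonneg_left h3 (by linarith)
  have h5 : (1 : ℝ) ≤ C * B ^ (ε / (J + 1)) := by
    have := rone hB (show 0 ≤ ε / (J + 1 : ℝ) by positivity)
    nlinarith
  calc (tau b : ℝ) ^ j ≤ (C * B ^ (ε / (J + 1))) ^ j := pow_le_pow_left₀ (by positivity) h2 j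
    _ ≤ (C * B ^ (ε / (J + 1))) ^ J := pow_le_pow_right₀ h5 hj
    _ = C ^ J * B ^ (ε / (J + 1) * J) := by
        rw [mul_pow, ← Real.rpow_natCast (B ^ (ε / (J + 1 : ℝ))), rmul hB]
    _ ≤ C ^ J * B ^ ε := by
        have : B ^ (ε / (J + 1) * J) ≤ B ^ ε := by
          apply rle hB
          rw [div_mul_eq_mul_div, div_le_iff₀ (by positivity)]
          nlinarith
        have : 0 ≤ C ^ J := by positivity
        gcongr

end Vale.Agent.P006.LV
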