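import Vale.Agent.P006.LV.Dual2
import Vale.Agent.P006.LV.Pow
import Vale.Agent.P006.LV.Inst

/-!
P006, block LV: the large values theorem.
-/

namespace Vale.Agent.P006.LV

open Finset

theorem absorb {R L a x y : ℝ} (hR : 0 < R) (hL : 0 < L)
    (h : L * R ^ 2 ≤ a * (x * R + y * R ^ 2)) (hy : 2 * (a * y) ≤ L) : R ≤ 2 * a * x / L := by
  have h1 : L * R ^ 2 ≤ a * x * R + L / 2 * R ^ 2 := by
    have : a * y * R ^ 2 ≤ L / 2 * R ^ 2 := mul_le_mul_of_nonneg_right (by linarith) (sq_nonneg R)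
    linarith [show a * (x * R + y * R ^ 2) = a * x * R + a * y * R ^ 2 by ring]
  have h2 : (L * R) * R ≤ (2 * a * x) * R := by nlinarith
  have h3 := le_of_mul_le_mul_right h2 hR
  rw [le_div_iff₀ hL]; linarith

theorem sum_gamma_sq {P : Finset O} {γ : O → ℂ} {Γ X : ℝ} (hΓ : ∀ b ∈ P, ‖γ b‖ ≤ Γ)
    (hX : (P.card : ℝ) ≤ X) : ∑ b ∈ P, ‖γ b‖ ^ 2 ≤ X * Γ ^ 2 := by
  calc ∑ b ∈ P, ‖γ b‖ ^ 2 ≤ ∑ b ∈ P, Γ ^ 2 :=
        sum_le_sum fun b hb => pow_le_pow_left₀ (norm_nonneg _) (hΓ b hb) 2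
    _ = P.card * Γ ^ 2 := by simp
    _ ≤ _ := mul_le_mul_of_nonneg_right hX (sq_nonneg _)

theorem rpow_jpow {B y : ℝ} (hB : 1 ≤ B) (j : ℕ) : (B ^ y) ^ j = B ^ (j * y) := by
  rw [← Real.rpow_natCast, rmul hB]; congr 1; ring

/-- **Large values** via the dual bound. -/
theorem large_values {d₂ θ ε ρ : ℝ} (hd : 0 < d₂) (hθ : 0 < θ) (hε : 0 < ε) (hε1 : ε ≤ 1)
    (hρ : 0 < ρ) (J : ℕ) : ∃ C B₀ : ℝ, 0 ≤ C ∧ 1 < B₀ ∧
    ∀ B : ℝ, B₀ ≤ B → ∀ (j : ℕ) (y σ q : ℝ), j ≤ J → 0 ≤ y → 0 ≤ q → q ≤ 2 → q + d₂ ≤ j * y →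
      j * y ≤ 2 → ρ ≤ j * y * (2 * σ - 3 / 2) - θ - 3 * ε →
      ∀ a : O → ℂ, (∀ n, ‖a n‖ ≤ 1) → ∀ E : Finset O, E ⊆ SB (B ^ q) →
      (∀ k ∈ E, B ^ (y * σ) ≤ ‖∑ n ∈ PB (B ^ y), a n * ch n k‖) →
      (E.card : ℝ) ≤ C * (B ^ (j * y + 3 * ε - 2 * (j * y) * σ) *
        (B ^ (j * y) + (B ^ (2 / 3 * (j * y + q) - sav θ (d₂ / 2)) + B ^ (j * y / 3 + q)))) := by
  obtain ⟨C₁, hC₁, h₁⟩ := dual_bound pstar bfull hbsq clsq hθ hd hε hε1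
  obtain ⟨C₂, hC₂, h₂⟩ := tau_pow_bound (ε := ε / 2) (by positivity) J
  set a₀ : ℝ := 4 * C₂ ^ 2 * C₁ with ha₀
  have ha₀0 : 0 ≤ a₀ := by positivity
  refine ⟨2 * a₀, max 2 ((2 * a₀) ^ (1 / ρ)), by positivity, lt_max_of_lt_left (by norm_num), ?_⟩
  intro B hBB j y σ q hj hy hq hq2 hqm hm2 hρ' a ha E hE hEV
  have hB1 : 1 < B := lt_of_lt_of_le (by norm_num) ((le_max_left _ _).trans hBB)
  have hB : 1 ≤ B := hB1.le
  have hP' : ∀ a : ℝ, 0 < B ^ a := fun a => rpos hB a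
  have hBρ : 2 * a₀ ≤ B ^ ρ := by
    have h3 := (le_max_right _ _).trans hBB
    have h4 := Real.rpow_le_rpow (by positivity) h3 hρ.le
    rwa [← Real.rpow_mul (by positivity), one_div_mul_cancel hρ.ne', Real.rpow_one] at h4
  set m : ℝ := j * y with hmy
  have hm0 : 0 ≤ m := by positivity
  rcases E.eq_empty_or_nonempty with hemp | hne
  · rw [hemp]
    simp only [card_empty, Nat.cast_zero]
    have := (hP' m).le
    have := (hP' (m + 3 * ε - 2 * m * σ)).le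
    have := (hP' (2 / 3 * (m + q) - sav θ (d₂ / 2))).le
    have := (hP' (m / 3 + q)).le
    positivity
  set R : ℝ := (E.card : ℝ) with hR
  have hR0 : 0 < R := by
    rw [hR]; exact_mod_cast hne.card_pos
  obtain ⟨γ, hγ1, hγ2⟩ := pow_repr (rone hB hy) ha j
  have e1 : (B ^ y) ^ j = B ^ m := rpow_jpow hB j
  rw [e1] at hγ2
  have hγΓ : ∀ b ∈ PB (B ^ m), ‖γ b‖ ≤ C₂ * B ^ (ε / 2) := fun b hb =>
    (hγ1 b (mem_PB.1 hb).1).trans (h₂ B m hB hm0 hm2 j hj b hb)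
  have hs := sum_gamma_sq hγΓ (card_PB_le (hP' m).le)
  have hV : ∀ k ∈ E, B ^ (m * σ) ≤ ‖∑ b ∈ PB (B ^ m), γ b * ch b k‖ := by
    intro k hk
    rw [← hγ2 k, norm_pow]
    have h3 : B ^ (m * σ) = (B ^ (y * σ)) ^ j := by
      rw [rpow_jpow hB]; congr 1; rw [hmy]; ring
    rw [h3]
    exact pow_le_pow_left₀ (hP' _).le (hEV k hk) j
  have key := hm (hP' (m * σ)).le hV (fun c hc =>
    h₁ B q m hB1 hq hq2 (by linarith) hqm E hE c hc)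
  rw [← hR] at key
  set u : ℝ := B ^ (2 / 3 * (m + q) - sav θ (d₂ / 2)) with hu
  set v : ℝ := B ^ (m / 3 + q) with hv
  have hu0 : 0 < u := hP' _
  have hv0 : 0 < v := hP' _
  -- combine
  have key2 : B ^ (2 * m * σ) * R ^ 2 ≤ a₀ * ((B ^ (m + 2 * ε) * (B ^ m + (u + v))) * R +
      (B ^ (m + 2 * ε) * B ^ (m / 2 + θ)) * R ^ 2) := by
    calc B ^ (2 * m * σ) * R ^ 2 = (B ^ (m * σ) * R) ^ 2 := by
          rw [mul_pow, rpow_sq hB]; congr 2; ring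
      _ ≤ (∑ b ∈ PB (B ^ m), ‖γ b‖ ^ 2) * (C₁ * (B ^ ε * (B ^ m * R) + dtgt θ d₂ ε B m q R)) :=
          key
      _ ≤ (4 * B ^ m * (C₂ * B ^ (ε / 2)) ^ 2) *
            (C₁ * (B ^ ε * (B ^ m * R) + dtgt θ d₂ ε B m q R)) := by
          refine mul_le_mul_of_nonneg_right hs ?_
          have := (hP' ε).le
          have := (hP' m).le
          have := dtgt_nonneg (θ := θ) (d₂ := d₂) (ε := ε) (m := m) (q := q) hB hR0.le
          positivity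
      _ = a₀ * (((B ^ m * (B ^ (ε / 2)) ^ 2 * B ^ ε) * (B ^ m + (u + v))) * R +
            ((B ^ m * (B ^ (ε / 2)) ^ 2 * B ^ ε) * B ^ (m / 2 + θ)) * R ^ 2) := by
          rw [ha₀]; unfold dtgt; ring
      _ = _ := by
          rw [rpow_sq hB, radd hB, radd hB, show m + 2 * (ε / 2) + ε = m + 2 * ε by ring]
  have hy2 : 2 * (a₀ * (B ^ (m + 2 * ε) * B ^ (m / 2 + θ))) ≤ B ^ (2 * m * σ) := by
    calc 2 * (a₀ * (B ^ (m + 2 * ε) * B ^ (m / 2 + θ)))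
        = (2 * a₀) * (B ^ (m + 2 * ε) * B ^ (m / 2 + θ)) := by ring
      _ ≤ B ^ ρ * (B ^ (m + 2 * ε) * B ^ (m / 2 + θ)) :=
          mul_le_mul_of_nonneg_right hBρ (mul_nonneg (hP' _).le (hP' _).le)
      _ = B ^ (ρ + (m + 2 * ε + (m / 2 + θ))) := by rw [radd hB, radd hB]
      _ ≤ _ := rle hB (by nlinarith)
  have h5 := absorb hR0 (hP' _) key2 hy2
  refine h5.trans ?_
  have h6 : 2 * a₀ * (B ^ (m + 2 * ε) * (B ^ m + (u + v))) / B ^ (2 * m * σ) =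
      2 * a₀ * (B ^ (m + 2 * ε - 2 * m * σ) * (B ^ m + (u + v))) := by
    rw [Real.rpow_sub (by linarith)]; ring
  rw [h6]
  have h7 : B ^ (m + 2 * ε - 2 * m * σ) ≤ B ^ (m + 3 * ε - 2 * m * σ) := rle hB (by linarith)
  have := (hP' m).le
  gcongr

end Vale.Agent.P006.LV
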