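import Vale.Agent.P006.LV.CellExp

/-!
P006, block LV: the refined frequency sum.
-/

namespace Vale.Agent.P006.LV

open Finset

theorem sum_le_of_cover {α β : Type*} (S : Finset α) (T : Finset β) (g : β → α) (f : α → ℝ)
    (hf : ∀ a, 0 ≤ f a) (hcov : ∀ z ∈ S, ∃ t ∈ T, g t = z) :
    ∑ z ∈ S, f z ≤ ∑ t ∈ T, f (g t) := by
  classical
  have h1 : S ⊆ T.image g := by
    intro z hz
    obtain ⟨t, ht, rfl⟩ := hcov z hz
    exact mem_image_of_mem g ht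
  calc ∑ z ∈ S, f z ≤ ∑ z ∈ T.image g, f z :=
        sum_le_sum_of_subset_of_nonneg h1 fun a _ _ => hf a
    _ ≤ ∑ z ∈ T.image g, ∑ t ∈ T with g t = z, f (g t) := by
        refine sum_le_sum fun z hz => ?_
        obtain ⟨t, ht, rfl⟩ := mem_image.1 hz
        exact single_le_sum (f := fun t => f (g t)) (fun a _ => hf (g a))
          (mem_filter.2 ⟨ht, rfl⟩)
    _ = ∑ t ∈ T, f (g t) := sum_fiberwise_of_maps_to (fun t ht => mem_image_of_mem g ht) _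

/-- outer parameters `(u, j, i₁, i₂)` -/
noncomputable def outer (I J : ℕ) : Finset (O × ℕ × ℕ × ℕ) :=
  U6 ×ˢ range (J + 1) ×ˢ range (I + 1) ×ˢ range (I + 1)

theorem card_outer_le (I J : ℕ) : ((outer I J).card : ℝ) ≤ 6 * (J + 1) * (I + 1) ^ 2 := by
  have h : (U6.card : ℝ) ≤ 6 := by exact_mod_cast card_U6_le
  simp only [outer, card_product, card_range]
  push_cast
  have : (0 : ℝ) ≤ (J + 1) * ((I + 1) * (I + 1)) := by positivity
  nlinarith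

open Classical in
theorem sum_NZ_le {B κ h : ℝ} (hB : 1 ≤ B) (hκ : 0 < κ) (hh : 0 ≤ h) {I J : ℕ}
    (hI : ∀ i : ℕ, (i : ℝ) ≤ h / κ → i ≤ I) (hJ : ∀ j : ℕ, (2 : ℝ) ^ j ≤ B ^ h → j ≤ J)
    (E : Finset O) (γ : O → ℂ) :
    ∑ z ∈ NZ (B ^ h), ‖∑ r ∈ E, γ r * ch r z‖ ^ 2 ≤
      ∑ p ∈ outer I J, ∑ h₃ ∈ PB (B ^ ((h - κ * p.2.2.1 - 2 * (κ * p.2.2.2)) / 3)),
        W E (fun r => γ r * ch r (p.1 * lam ^ p.2.1 * h₃ ^ 3))
          (B ^ (κ * p.2.2.1 + κ)) (B ^ (κ * p.2.2.2 + κ)) := by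
  classical
  have hP : ∀ a : ℝ, 0 < B ^ a := fun a => rpos hB a
  set T₁ : Finset (Σ _ : O × ℕ × ℕ × ℕ, O) := (outer I J).sigma
    (fun p => PB (B ^ ((h - κ * p.2.2.1 - 2 * (κ * p.2.2.2)) / 3))) with hT₁
  set T : Finset (Σ _ : (Σ _ : O × ℕ × ℕ × ℕ, O), Σ _ : O, O) := T₁.sigma
    (fun q => (SB (B ^ (κ * q.1.2.2.1 + κ))).sigma
      (fun k₁ => (SB (B ^ (κ * q.1.2.2.2 + κ))).filter (IsCoprime k₁ ·))) with hT
  have h0 := sum_le_of_cover (NZ (B ^ h)) T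
    (fun t => t.1.1.1 * lam ^ t.1.1.2.1 * t.1.2 ^ 3 * (t.2.1 * t.2.2 ^ 2))
    (fun z => ‖∑ r ∈ E, γ r * ch r z‖ ^ 2) (fun _ => by positivity) ?_
  · refine h0.trans (le_of_eq ?_)
    rw [hT, sum_sigma, hT₁, sum_sigma]
    refine sum_congr rfl fun p _ => sum_congr rfl fun h₃ _ => ?_
    rw [sum_sigma, W]
    refine sum_congr rfl fun k₁ _ => sum_congr rfl fun k₂ _ => ?_
    congr 2
    refine sum_congr rfl fun r _ => ?_
    rw [ch_mul r (p.1 * lam ^ p.2.1 * h₃ ^ 3) (k₁ * k₂ ^ 2), ch_mul r k₁ (k₂ ^ 2), ch_pow]; ring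
  · intro z hz
    rw [mem_NZ] at hz
    obtain ⟨u, hu, j, h₁, h₂, h₃, p1, s1, p2, s2, hc, p3, he, hN⟩ := full_decomp hz.1
    have n1 : (1 : ℝ) ≤ N h₁ := p1.one_le_N'
    have n2 : (1 : ℝ) ≤ N h₂ := p2.one_le_N'
    have n3 : (1 : ℝ) ≤ N h₃ := p3.one_le_N'
    have hN' : (N z : ℝ) = 3 ^ j * ((N h₃ : ℝ) ^ 3 * (N h₁ * (N h₂ : ℝ) ^ 2)) := by
      rw [hN]; push_cast; ring
    have hj1 : (1 : ℝ) ≤ 3 ^ j := one_le_pow₀ (by norm_num)
    have n3' : (1 : ℝ) ≤ (N h₃ : ℝ) ^ 3 := one_le_pow₀ n3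
    have n2' : (1 : ℝ) ≤ (N h₂ : ℝ) ^ 2 := one_le_pow₀ n2
    have m12 : (1 : ℝ) ≤ N h₁ * (N h₂ : ℝ) ^ 2 := one_le_mul_of_one_le_of_one_le n1 n2'
    have m312 : (1 : ℝ) ≤ (N h₃ : ℝ) ^ 3 * (N h₁ * (N h₂ : ℝ) ^ 2) :=
      one_le_mul_of_one_le_of_one_le n3' m12
    have hz2 := hz.2
    rw [hN'] at hz2
    -- bounds
    have b312 : (N h₃ : ℝ) ^ 3 * (N h₁ * (N h₂ : ℝ) ^ 2) ≤ B ^ h :=
      (le_mul_of_one_le_left (by linarith) hj1).trans hz2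
    have b12 : N h₁ * (N h₂ : ℝ) ^ 2 ≤ B ^ h :=
      (le_mul_of_one_le_left (by linarith) n3').trans b312
    have b1 : (N h₁ : ℝ) ≤ B ^ h := (le_mul_of_one_le_right (by linarith) n2').trans b12
    have b2 : (N h₂ : ℝ) ≤ B ^ h := by
      have h5 : (N h₂ : ℝ) ≤ (N h₂ : ℝ) ^ 2 := by nlinarith
      exact h5.trans ((le_mul_of_one_le_left (by positivity) n1).trans b12)
    have bj : (2 : ℝ) ^ j ≤ B ^ h := by
      have h5 : (2 : ℝ) ^ j ≤ 3 ^ j := pow_le_pow_left₀ (by norm_num) (by norm_num) j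
      exact h5.trans ((le_mul_of_one_le_right (by positivity) m312).trans hz2)
    obtain ⟨i₁, hi₁, l1, r1⟩ := exists_grid hB hκ hh n1 b1
    obtain ⟨i₂, hi₂, l2, r2⟩ := exists_grid hB hκ hh n2 b2
    refine ⟨⟨⟨(u, j, i₁, i₂), h₃⟩, ⟨h₁, h₂⟩⟩, ?_, he.symm⟩
    simp only [hT, hT₁, mem_sigma, outer, mem_product, mem_range, mem_PB, mem_filter, mem_SB]
    refine ⟨⟨⟨hu, Nat.lt_succ_of_le (hJ j bj), Nat.lt_succ_of_le (hI i₁ hi₁),
      Nat.lt_succ_of_le (hI i₂ hi₂)⟩, p3, ?_⟩, ⟨p1, s1, ?_⟩, ⟨p2, s2, ?_⟩, hc⟩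
    · -- size of h₃
      have l2' : B ^ (2 * (κ * i₂)) ≤ (N h₂ : ℝ) ^ 2 := by
        rw [← rpow_sq hB]; exact pow_le_pow_left₀ (hP _).le l2 2
      have h5 : B ^ (κ * i₁) * B ^ (2 * (κ * i₂)) ≤ N h₁ * (N h₂ : ℝ) ^ 2 :=
        mul_le_mul l1 l2' (hP _).le (by linarith)
      have h6 : (N h₃ : ℝ) ^ 3 * (B ^ (κ * i₁) * B ^ (2 * (κ * i₂))) ≤ B ^ h :=
        (mul_le_mul_of_nonneg_left h5 (by positivity)).trans b312
      have h7 : (N h₃ : ℝ) ^ 3 ≤ B ^ (h - κ * i₁ - 2 * (κ * i₂)) := by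
        have h8 : B ^ h = B ^ (h - κ * i₁ - 2 * (κ * i₂)) * (B ^ (κ * i₁) * B ^ (2 * (κ * i₂))) := by
          rw [radd hB, radd hB]; congr 1; ring
        rw [h8] at h6
        exact le_of_mul_le_mul_right h6 (mul_pos (hP _) (hP _))
      have h9 : (B ^ ((h - κ * i₁ - 2 * (κ * i₂)) / 3)) ^ 3 = B ^ (h - κ * i₁ - 2 * (κ * i₂)) := by
        rw [← Real.rpow_natCast, rmul hB]; congr 1; push_cast; ring
      rw [← h9] at h7
      exact le_of_pow_le_pow_left₀ (by norm_num) (hP _).le h7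
    · rwa [show κ * (i₁ : ℝ) + κ = κ * (i₁ + 1) by ring]
    · rwa [show κ * (i₂ : ℝ) + κ = κ * (i₂ + 1) by ring]

theorem T_refined (hHB : HBsq) (hCLS : CLSq) {θ d ε : ℝ} (hθ : 0 < θ) (hd : 0 < d)
    (hε : 0 < ε) : ∃ C : ℝ, 0 ≤ C ∧ ∀ B x h : ℝ, 1 ≤ B → 0 ≤ h → h + d ≤ x → x ≤ 2 →
      ∀ E : Finset O, E ⊆ SB (B ^ x) → ∀ γ : O → ℂ, (∀ r, ‖γ r‖ ≤ 1) →
      ∑ z ∈ NZ (B ^ h), ‖∑ r ∈ E, γ r * ch r z‖ ^ 2 ≤ C * tgt θ d ε B x h E.card := by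
  classical
  obtain ⟨C₁, hC₁, hC₁'⟩ := hHB (ε / 2 / 10) (by positivity)
  obtain ⟨C₂, hC₂, hC₂'⟩ := hCLS
  obtain ⟨C₃, hC₃, hC₃'⟩ := exists_log_bound (ε := ε / 2) (by positivity) 2 (by norm_num)
  set κ : ℝ := min (min (θ / 4) (d / 16)) (min (ε / 2 / 4) 1) with hκdef
  have hκ : 0 < κ := lt_min (lt_min (by positivity) (by positivity)) (lt_min (by positivity) one_pos)
  have hκ1 : κ ≤ θ / 4 := (min_le_left _ _).trans (min_le_left _ _)
  have hκ2 : κ ≤ d / 16 := (min_le_left _ _).trans (min_le_right _ _)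
  have hκ3 : κ ≤ ε / 2 / 4 := (min_le_right _ _).trans (min_le_left _ _)
  have hκ4 : κ ≤ 1 := (min_le_right _ _).trans (min_le_right _ _)
  set I : ℕ := ⌊2 / κ⌋₊ with hI
  set C₀ : ℝ := 64 + 64 * C₁ + 8 * C₂ with hC₀
  have hC₀' : 0 ≤ C₀ := by positivity
  refine ⟨6 * (2 * C₃) * (I + 1) ^ 2 * C₀, by positivity, ?_⟩
  intro B x h hB hh hx hx2 E hE γ hγ
  have hP : ∀ a : ℝ, 0 < B ^ a := fun a => rpos hB a
  have hBε : 1 ≤ B ^ (ε / 2) := rone hB (by positivity)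
  set J : ℕ := ⌊C₃ * B ^ (ε / 2)⌋₊ with hJ
  have hJle : ((J : ℝ) + 1) ≤ 2 * C₃ * B ^ (ε / 2) := by
    have h1 : (J : ℝ) ≤ C₃ * B ^ (ε / 2) := Nat.floor_le (by positivity)
    nlinarith
  have hI' : ∀ i : ℕ, (i : ℝ) ≤ h / κ → i ≤ I := by
    intro i hi
    apply Nat.le_floor
    exact hi.trans (div_le_div_of_nonneg_right (by linarith) hκ.le)
  have hJ' : ∀ j : ℕ, (2 : ℝ) ^ j ≤ B ^ h → j ≤ J := by
    intro j hj
    apply Nat.le_floor
    have h1 := hC₃' B hB j (hj.trans (by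
      have := rle hB (show h ≤ 2 by linarith)
      simpa using this))
    linarith
  refine (sum_NZ_le hB hκ hh hI' hJ' E γ).trans ?_
  set t : ℝ := tgt θ d (ε / 2) B x h E.card with ht
  have ht0 : 0 ≤ t := tgt_nonneg hB (by positivity)
  have key : ∀ p ∈ outer I J,
      ∑ h₃ ∈ PB (B ^ ((h - κ * p.2.2.1 - 2 * (κ * p.2.2.2)) / 3)),
        W E (fun r => γ r * ch r (p.1 * lam ^ p.2.1 * h₃ ^ 3))
          (B ^ (κ * p.2.2.1 + κ)) (B ^ (κ * p.2.2.2 + κ)) ≤ C₀ * t := by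
    rintro ⟨u, j, i₁, i₂⟩ _
    simp only
    set a₁ : ℝ := κ * i₁ with ha₁
    set a₂ : ℝ := κ * i₂ with ha₂
    have ha₁0 : 0 ≤ a₁ := by positivity
    have ha₂0 : 0 ≤ a₂ := by positivity
    by_cases hneg : h - a₁ - 2 * a₂ < 0
    · have h1 : B ^ ((h - a₁ - 2 * a₂) / 3) < 1 ∨ B = 1 := by
        rcases hB.eq_or_lt with h2 | h2
        · exact Or.inr h2.symm
        · exact Or.inl (Real.rpow_lt_one_of_one_lt_of_neg h2 (by linarith))
      rcases h1 with h1 | h1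
      · rw [PB_eq_empty h1, sum_empty]; positivity
      · -- `B = 1`: all sizes are one
        subst h1
        have hc : ∀ γ' : O → ℂ, (∀ r, ‖γ' r‖ ≤ 1) → 4 * W E γ' 1 1 ≤ C₀ * t := by
          intro γ' hγ'
          have hc := cell_le (h := h) (a₁ := 0) (a₂ := 0) hθ hd (show 0 < ε / 2 by positivity)
            hC₁ hC₁' hC₂ hC₂' hB hκ hκ1 hκ2 hκ3 hκ4 hh hx hx2 le_rfl le_rfl (by simpa using hh) hE
            hγ'
          simpa only [Real.one_rpow, mul_one] using hc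
        simp only [Real.one_rpow]
        calc ∑ h₃ ∈ PB 1, W E (fun r => γ r * ch r (u * lam ^ j * h₃ ^ 3)) 1 1
            ≤ ∑ h₃ ∈ PB 1, (C₀ * t) / 4 := by
              refine sum_le_sum fun h₃ _ => ?_
              have h3 := hc (fun r => γ r * ch r (u * lam ^ j * h₃ ^ 3)) (fun r => by
                rw [norm_mul]; exact mul_le_one₀ (hγ r) (norm_nonneg _) (norm_ch_le r _))
              rw [le_div_iff₀ (by norm_num)]
              linarith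
          _ = (PB 1).card * ((C₀ * t) / 4) := by simp
          _ ≤ (4 * 1) * ((C₀ * t) / 4) := by
              have := card_PB_le (show (0 : ℝ) ≤ 1 by norm_num)
              gcongr
          _ = C₀ * t := by ring
    · push Not at hneg
      set y : ℝ := B ^ ((h - a₁ - 2 * a₂) / 3) with hy
      have hy0 : 0 < y := hP _
      calc ∑ h₃ ∈ PB y, W E (fun r => γ r * ch r (u * lam ^ j * h₃ ^ 3))
            (B ^ (a₁ + κ)) (B ^ (a₂ + κ))
          ≤ ∑ h₃ ∈ PB y, (C₀ * t) / (4 * y) := by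
            refine sum_le_sum fun h₃ _ => ?_
            have h3 := cell_le (h := h) (a₁ := a₁) (a₂ := a₂) hθ hd (show 0 < ε / 2 by positivity)
              hC₁ hC₁' hC₂ hC₂' hB hκ hκ1 hκ2 hκ3 hκ4 hh hx hx2 ha₁0 ha₂0 (by linarith) hE
              (γ := fun r => γ r * ch r (u * lam ^ j * h₃ ^ 3)) (fun r => by
                rw [norm_mul]; exact mul_le_one₀ (hγ r) (norm_nonneg _) (norm_ch_le r _))
            rw [le_div_iff₀ (by positivity)]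
            calc _ = 4 * y * W E (fun r => γ r * ch r (u * lam ^ j * h₃ ^ 3))
                  (B ^ (a₁ + κ)) (B ^ (a₂ + κ)) := by ring
              _ ≤ _ := h3
        _ = (PB y).card * ((C₀ * t) / (4 * y)) := by simp
        _ ≤ (4 * y) * ((C₀ * t) / (4 * y)) := by
            have := card_PB_le hy0.le
            gcongr
        _ = C₀ * t := by field_simp
  calc _ ≤ ∑ p ∈ outer I J, C₀ * t := sum_le_sum key
    _ = (outer I J).card * (C₀ * t) := by simp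
    _ ≤ (6 * (J + 1) * (I + 1) ^ 2) * (C₀ * t) := by
        have := card_outer_le I J
        gcongr
    _ ≤ (6 * (2 * C₃ * B ^ (ε / 2)) * (I + 1) ^ 2) * (C₀ * t) := by gcongr
    _ = 6 * (2 * C₃) * (I + 1) ^ 2 * C₀ * (B ^ (ε / 2) * t) := by ring
    _ = _ := by
        have : B ^ (ε / 2) * t = tgt θ d ε B x h E.card := by
          rw [ht, tgt, tgt, ← mul_assoc, radd hB]; congr 2; ring
        rw [this]

end Vale.Agent.P006.LV
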